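import Vale.Agent.P092WN.Chain
import Mathlib.Analysis.SpecialFunctions.Pow.Asymptotics

/-!
P092 (helper20), block B6: the choice of the scales.
-/

set_option linter.all false

open Filter Topology
open scoped InnerProductSpace

namespace Vale.Agent.P092WN

variable {T : ℝ → ℝ}

theorem Scale.top (hT : Scale T) (k : ℕ) : Tendsto (fun N : ℕ => T^[k] N) atTop atTop := by
  refine Tendsto.comp (g := T^[k]) ?_ tendsto_natCast_atTop_atTop
  refine tendsto_atTop_mono' _ ?_ Real.tendsto_log_atTop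
  filter_upwards [hT.big k 1] with x hx
  simpa using hx

theorem Scale.ev (hT : Scale T) (k : ℕ) (C : ℝ) :
    ∀ᶠ N : ℕ in atTop, 1 ≤ T^[k + 1] N ∧ C * T^[k + 1] N ^ 2 + C * Real.log N ≤ T^[k] N := by
  filter_upwards [(hT.top (k + 1)).eventually_ge_atTop 1, (hT.top k).eventually (hT.small (2 * C)),
    tendsto_natCast_atTop_atTop.eventually (hT.big k (2 * C))] with N h1 h2 h3
  rw [Function.iterate_succ_apply'] at h1 ⊢
  exact ⟨h1, by linarith⟩

theorem Scale.lin (hT : Scale T) (k : ℕ) {C : ℝ} (hC : 0 ≤ C) :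
    ∀ᶠ N : ℕ in atTop, 1 ≤ T^[k + 1] N ∧ C * T^[k + 1] N + C * Real.log N ≤ T^[k] N := by
  filter_upwards [hT.ev k C] with N h
  refine ⟨h.1, le_trans ?_ h.2⟩
  have : T^[k + 1] N ≤ T^[k + 1] N ^ 2 := by nlinarith [h.1]
  nlinarith

theorem Scale.anti (hT : Scale T) (k j : ℕ) : ∀ᶠ N : ℕ in atTop, T^[k + j] N ≤ T^[k] N := by
  induction j with
  | zero => simp
  | succ j ih =>
    filter_upwards [ih, hT.lin (k + j) zero_le_one, eventually_ge_atTop 1] with N h1 h2 h3
    have : 0 ≤ Real.log N := Real.log_nonneg (by exact_mod_cast h3)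
    have h4 := h2.2
    rw [← add_assoc]
    linarith

theorem small_of {N : ℝ} (hN : 0 < N) (p q : ℕ) {a : ℝ} (h : a + (p + q) * Real.log N ≤ 0) :
    N ^ p * Real.exp a ≤ 1 / N ^ q := by
  rw [le_div_iff₀ (pow_pos hN q)]
  have e : N ^ p * Real.exp a * N ^ q = Real.exp (a + (p + q) * Real.log N) := by
    rw [Real.exp_add, ← Nat.cast_add, Real.exp_nat_mul, Real.exp_log hN, pow_add]; ring
  rw [e]
  exact Real.exp_le_one_iff.2 h

/-- the scale `exp ((log x) ^ a)` -/
noncomputable def sc (a x : ℝ) : ℝ := Real.exp (Real.log (max x 1) ^ a)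

theorem sc_iter {a : ℝ} (ha : 0 < a) (k : ℕ) {x : ℝ} (hx : 1 ≤ x) :
    (sc a)^[k] x = Real.exp (Real.log x ^ (a ^ k)) := by
  induction k with
  | zero => simp [Real.exp_log (zero_lt_one.trans_le hx)]
  | succ k ih =>
    have h0 := Real.log_nonneg hx
    rw [Function.iterate_succ_apply', ih, sc,
      max_eq_left (Real.one_le_exp (Real.rpow_nonneg h0 _)), Real.log_exp, ← Real.rpow_mul h0,
      pow_succ]

theorem scale_sc {a : ℝ} (ha : 0 < a) (ha1 : a < 1) : Scale (sc a) where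
  mono x y h := Real.exp_le_exp.2 (Real.rpow_le_rpow (Real.log_nonneg (le_max_right _ _))
    (Real.log_le_log (by positivity) (max_le_max h le_rfl)) ha.le)
  small C := by
    have h1 : ∀ᶠ y : ℝ in atTop, |C| + 2 * y ^ a ≤ y := by
      have h2 := (tendsto_rpow_neg_atTop (sub_pos.2 ha1)).eventually
        (gt_mem_nhds (show (0 : ℝ) < 1 / 4 by norm_num))
      filter_upwards [h2, eventually_ge_atTop (2 * |C|), eventually_gt_atTop 0] with y h3 h4 h5
      have e : y ^ a = y ^ (-(1 - a)) * y := by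
        rw [← Real.rpow_add_one h5.ne']; congr 1; ring
      rw [e]
      nlinarith
    filter_upwards [Real.tendsto_log_atTop.eventually h1, eventually_ge_atTop 1] with x h2 h3
    rw [sc, max_eq_left h3, ← Real.exp_nat_mul]
    calc C * Real.exp ((2 : ℕ) * Real.log x ^ a)
        ≤ Real.exp |C| * Real.exp ((2 : ℕ) * Real.log x ^ a) :=
          mul_le_mul_of_nonneg_right ((le_abs_self C).trans
            (by linarith [Real.add_one_le_exp |C|])) (Real.exp_pos _).le
      _ ≤ Real.exp (Real.log x) := by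
          rw [← Real.exp_add]; exact Real.exp_le_exp.2 (by simpa using h2)
      _ = x := Real.exp_log (by linarith)
  big k C := by
    have hb : 0 < a ^ k := pow_pos ha k
    have h1 : ∀ᶠ u : ℝ in atTop, |C| * u ^ (a ^ k)⁻¹ ≤ Real.exp u := by
      filter_upwards [(tendsto_exp_div_rpow_atTop (a ^ k)⁻¹).eventually_ge_atTop |C|,
        eventually_gt_atTop 0] with u h2 h3
      rwa [le_div_iff₀ (Real.rpow_pos_of_pos h3 _)] at h2
    filter_upwards [((tendsto_rpow_atTop hb).comp Real.tendsto_log_atTop).eventually h1,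
      eventually_ge_atTop 1] with x h2 h3
    have h0 := Real.log_nonneg h3
    rw [sc_iter ha k h3]
    simp only [Function.comp] at h2
    rw [Real.rpow_rpow_inv h0 hb.ne'] at h2
    exact (mul_le_mul_of_nonneg_right (le_abs_self C) h0).trans h2

variable {G Γ H H₀ : Type} [Group G] [Group Γ] [NormedAddCommGroup H] [InnerProductSpace ℂ H]
  [NormedAddCommGroup H₀] [InnerProductSpace ℂ H₀] {S : Sys G Γ H H₀}
  {len gau gap : Γ → ℝ} {C : ℝ} {z : ℕ → G}

/-- the truncated gauge -/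
noncomputable def cut (len gau : Γ → ℝ) (N : ℕ) (γ : Γ) : ℝ :=
  if len γ ≤ (N : ℝ) ^ 2 then gau γ else 0

/-- the far positions -/
def far (len : Γ → ℝ) (N : ℕ) : Set Γ := {γ | (N : ℝ) ^ 2 / 2 < len γ}

theorem Gau.cut_le (hg : Gau len gau gap C) (N : ℕ) (γ : Γ) :
    |cut len gau N γ| ≤ C * ((N : ℝ) ^ 2 + 1) := by
  have hC := hg.one_le
  unfold cut
  split_ifs with h
  · exact (hg.bdd γ).trans (mul_le_mul_of_nonneg_left (by linarith) (by linarith))
  · rw [abs_zero]; positivity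

theorem Gau.cut_ev (hg : Gau len gau gap C) :
    ∀ᶠ N : ℕ in atTop, ∀ γ, |cut len gau N γ| ≤ (N : ℝ) ^ 3 := by
  filter_upwards [tendsto_natCast_atTop_atTop.eventually_ge_atTop (2 * C)] with N h γ
  have hC := hg.one_le
  refine (hg.cut_le N γ).trans ?_
  have h1 : (1 : ℝ) ≤ (N : ℝ) ^ 2 := one_le_pow₀ (by linarith)
  nlinarith

/-- the double commutator at the level `T^[i+1] N` -/
theorem dc_ev (hT : Scale T) (hg : Gau len gau gap C) (i : ℕ) :
    ∀ᶠ N : ℕ in atTop, ∀ (h s : G) (ε : ℝ) (a : S.LA len h (T^[i + 1] N) ε)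
      (b : S.RA len s (T^[i + 1] N) ε) (y : G),
      S.mass {γ | gap γ ≤ T^[i] N} (S.ζ y) ≤ 2 * Real.exp (-T^[i] N) →
      S.mass (far len N) (S.ζ y) ≤ (N + 2) * Real.exp (-T^[i] N) →
      ‖Sys.dc (cut len gau N) a b y (S.ζ y)‖ ≤ 1 / (N : ℝ) ^ 8 := by
  have hC := hg.one_le
  filter_upwards [hT.lin i (C := 14 * C) (by linarith), hg.cut_ev, hT.anti 0 (i + 1),
    eventually_ge_atTop 5] with N h1 h2 h3 h4
  have hN : (5 : ℝ) ≤ N := by exact_mod_cast h4
  have hl : 0 ≤ Real.log N := Real.log_nonneg (by linarith)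
  simp only [zero_add, Function.iterate_zero, id] at h3
  obtain ⟨hJ, h1⟩ := h1
  generalize T^[i + 1] N = J at *
  generalize T^[i] N = g at *
  intro h s ε a b y m1 m2
  have hCJ : 0 ≤ C * J := by positivity
  have hCl : Real.log N ≤ C * Real.log N := le_mul_of_one_le_left hl hC
  have key := Sys.dc_le (bd_of h2) a b y (S.ζ y) (hg.card J hJ _ a.len_le) (hg.card J hJ _ b.len_le)
    (D := (N : ℝ) ^ 6 * Real.exp (C * J - g)) (by positivity) (fun u t hu ht => by
      have h5 := S.m_split (f := fun γ => cut len gau N (u * γ * t) - cut len gau N (u * γ) -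
        cut len gau N (γ * t) + cut len gau N γ) ({γ | gap γ ≤ g} ∪ far len N)
        (a := Real.exp (C * J - g)) (b := 4 * (N : ℝ) ^ 3) (Real.exp_pos _).le (by positivity)
        (fun γ hγ => by
          simp only [far, Set.mem_union, Set.mem_setOf_eq, not_or, not_le, not_lt] at hγ
          have l1 := hg.len_mul u γ
          have l2 := hg.len_mul γ t
          have l3 := hg.len_mul (u * γ) t
          have l4 : 2 * J ≤ (N : ℝ) ^ 2 / 2 := by nlinarith
          simp only [cut]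
          rw [if_pos (by linarith), if_pos (by linarith), if_pos (by linarith),
            if_pos (by linarith)]
          exact (hg.dd J hJ u t γ hu ht (by nlinarith [hγ.1])).trans
            (Real.exp_le_exp.2 (by linarith [hγ.1])))
        (fun γ => by
          have := abs_le.1 (h2 (u * γ * t))
          have := abs_le.1 (h2 (u * γ))
          have := abs_le.1 (h2 (γ * t))
          have := abs_le.1 (h2 γ)
          rw [abs_le]; constructor <;> linarith) (S.ζ y)
      have h6 := (S.mass_union {γ | gap γ ≤ g} (far len N) (S.ζ y)).trans (add_le_add m1 m2)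
      have h7 : Real.exp (-g) ≤ Real.exp (C * J - g) := Real.exp_le_exp.2 (by linarith)
      have h8 := S.ζ_norm y
      have h9 := Real.exp_pos (C * J - g)
      have h10 : S.mass ({γ | gap γ ≤ g} ∪ far len N) (S.ζ y) ≤ (N + 4) * Real.exp (C * J - g) := by
        nlinarith
      have h11 : 1 + 4 * (N : ℝ) ^ 3 * (N + 4) ≤ (N : ℝ) ^ 6 := by
        have : (1 : ℝ) ≤ (N : ℝ) ^ 3 := one_le_pow₀ (by linarith)
        have h13 : 25 ≤ (N : ℝ) ^ 2 := by nlinarith
        have h12 : 1 + 4 * ((N : ℝ) + 4) ≤ (N : ℝ) ^ 3 := by nlinarith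
        nlinarith
      calc _ ≤ _ := h5
        _ ≤ Real.exp (C * J - g) * 1 + 4 * (N : ℝ) ^ 3 * ((N + 4) * Real.exp (C * J - g)) := by
            gcongr
        _ = (1 + 4 * (N : ℝ) ^ 3 * (N + 4)) * Real.exp (C * J - g) := by ring
        _ ≤ _ := mul_le_mul_of_nonneg_right h11 h9.le)
  refine key.trans (le_trans (le_of_eq ?_) 
    (small_of (N := N) (by linarith) 6 8 (a := 3 * (C * J) - g) ?_))
  · rw [show 3 * (C * J) - g = C * J + C * J + (C * J - g) by ring, Real.exp_add, Real.exp_add]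
    ring
  · push_cast
    nlinarith

variable [TopologicalSpace G] [IsTopologicalGroup G]

theorem lev_ev (hT : Scale T) (hg : Gau len gau gap C) (hp : Path z) (ht : S.Tail len T)
    {Q : Set G} (hQ : IsCompact Q) : ∃ Q', Q ⊆ Q' ∧ ∀ k : ℕ, ∀ᶠ N : ℕ in atTop,
      Sys.Lev S len Q' z (T^[k] N) (Real.exp (-T^[k + 1] N)) (Real.exp (C * T^[k] N)) := by
  obtain ⟨Q₀, hQ₀, hs⟩ := hp.step
  refine ⟨Q ∪ Q₀, Set.subset_union_left, fun k => ?_⟩
  filter_upwards [(hT.top k).eventually ht.1, (hT.top k).eventually (ht.2 _ (hQ.union hQ₀)),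
    (hT.top k).eventually_ge_atTop 1] with N h1 h2 h3
  rw [Function.iterate_succ_apply']
  have hC := hg.one_le
  exact ⟨fun h hh => (h2 h hh).1, fun h hh => (h2 h hh).2, h1, hg.card _ h3,
    Real.one_le_exp (by positivity), hp.zero, hp.comm, fun n => Or.inr (hs n)⟩

theorem far_ev (hT : Scale T) (hg : Gau len gau gap C) (hp : Path z) (ht : S.Tail len T)
    {Q : Set G} (hQ : IsCompact Q) : ∀ᶠ N : ℕ in atTop, ∀ n ≤ N,
      S.mass (far len N) (S.ζ (z n)) ≤ (N + 2) * Real.exp (-T^[3] N) ∧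
      ∀ k ∈ Q, S.mass (far len N) (S.ζ (k * z n)) ≤ (N + 2) * Real.exp (-T^[3] N) := by
  obtain ⟨Q', hQ', hl⟩ := lev_ev hT hg hp ht hQ
  filter_upwards [hl 2, hT.lin 0 (C := 6) (by norm_num), hT.anti 1 1, hT.lin 1 zero_le_one,
    eventually_ge_atTop 1] with N h1 h2 h3 h4 h5 n hn
  have hN : (1 : ℝ) ≤ N := by exact_mod_cast h5
  have hn' : (n : ℝ) ≤ N := by exact_mod_cast hn
  have hl : 0 ≤ Real.log N := Real.log_nonneg hN
  have h6 : 6 * T^[2] N ≤ N := by
    have := h2.2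
    simp only [zero_add, Function.iterate_zero, id] at this h3
    linarith
  have h7 : 1 ≤ T^[2] N := h4.1
  have h8 := Sys.far_path h1 hg.len_mul n
  have he := Real.exp_pos (-T^[3] N)
  have h9 : ((n : ℝ) + 2) * T^[2] N ≤ (N : ℝ) ^ 2 / 2 := by nlinarith
  refine ⟨(S.mass_mono (fun γ hγ => ?_) _).trans (h8.trans (by nlinarith)), fun k hk => ?_⟩
  · simp only [far, Set.mem_setOf_eq] at hγ ⊢
    linarith
  · obtain ⟨a⟩ := h1.la k (hQ' hk)
    refine (a.mass (E' := {γ | (n + 1) * T^[2] N < len γ}) (fun s hs γ hγ => ?_) (z n)).trans ?_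
    · have := hg.len_mul s γ
      simp only [far, Set.mem_setOf_eq] at hγ ⊢
      linarith
    · nlinarith

/-- **Lemma A**: the amplitude. -/
theorem amp_ev (hT : Scale T) (hg : Gau len gau gap C) (hp : Path z) (ht : S.Tail len T)
    (hw : S.NearWall gap T z) {Q : Set G} (hQ : IsCompact Q) :
    ∀ᶠ N : ℕ in atTop, ∀ k ∈ Q, ∀ q ∈ Q, S.Na (S.m (cut len gau N) (S.ζ (k * z N * q)))
      (Real.exp (T^[5] N / 2)) (1 / (N : ℝ) ^ 5) := by
  obtain ⟨Q', hQ', hl⟩ := lev_ev hT hg hp ht hQ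
  obtain ⟨n₀, hn₀⟩ := eventually_atTop.1 hw
  have hC := hg.one_le
  filter_upwards [hl 8, dc_ev (S := S) hT hg 7, far_ev hT hg hp ht hQ, hg.cut_ev,
    (hT.top 6).eventually_ge_atTop n₀, hT.anti 0 6, hT.anti 3 4, hT.anti 6 2,
    hT.ev 5 (12 * C), tendsto_natCast_atTop_atTop.eventually (hT.big 9 12), hT.lin 7 zero_le_one,
    eventually_ge_atTop 8] with N h1 h2 h3 h4 h5 h6 h7 h8 h9 h10 h11 h12 k hk q hq
  have hN : (8 : ℝ) ≤ N := by exact_mod_cast h12
  have hlog : 0 ≤ Real.log N := Real.log_nonneg (by linarith)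
  simp only [zero_add, Function.iterate_zero, id] at h6
  have hN₀ : ⌈T^[6] N⌉₊ ≤ N := Nat.ceil_le.2 h6
  have key := Sys.xi_chain h1 h4 hN₀ (D := 1 / (N : ℝ) ^ 8) (fun h s a b n h0 hn => by
    have e1 : T^[6] N ≤ n := Nat.ceil_le.1 h0
    have e2 : T^[7] N ≤ T n := by
      rw [Function.iterate_succ_apply']; exact hT.mono e1
    have e3 := hn₀ n (by exact_mod_cast h5.trans e1)
    have e4 := Real.exp_pos (-T^[7] N)
    refine h2 h s _ a b (z n) ?_ ((h3 n hn).1.trans ?_)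
    · refine (S.mass_mono (fun γ hγ => ?_) _).trans (e3.trans ?_)
      · exact le_trans hγ e2
      · have := Real.exp_le_exp.2 (neg_le_neg e2)
        linarith
    · exact mul_le_mul_of_nonneg_left (Real.exp_le_exp.2 (neg_le_neg h7)) (by positivity))
    (hQ' hk) (hQ' hq)
  refine key.mono ?_ ?_
  · have e1 : (⌈T^[6] N⌉₊ : ℝ) ≤ T^[6] N + 1 := (Nat.ceil_lt_add_one (by linarith [h9.1])).le
    have e2 : Real.exp (C * T^[8] N) ^ (⌈T^[6] N⌉₊ + 2) ≤ Real.exp (4 * C * T^[6] N ^ 2) := by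
      rw [← Real.exp_nat_mul]
      refine Real.exp_le_exp.2 ?_
      push_cast
      have e3 : (⌈T^[6] N⌉₊ : ℝ) + 2 ≤ 4 * T^[6] N := by linarith [h9.1]
      have e4 : C * T^[8] N ≤ C * T^[6] N := mul_le_mul_of_nonneg_left h8 (by linarith)
      have e5 : 0 ≤ C * T^[8] N := mul_nonneg (by linarith) (by linarith [h11.1])
      calc _ ≤ (4 * T^[6] N) * (C * T^[6] N) := mul_le_mul e3 e4 e5 (by linarith [h9.1])
        _ = _ := by ring
    have e3 : 3 * ((N : ℝ) + 1) * (N : ℝ) ^ 3 ≤ (N : ℝ) ^ 5 := by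
      have : 3 * ((N : ℝ) + 1) ≤ (N : ℝ) ^ 2 := by nlinarith
      calc _ ≤ (N : ℝ) ^ 2 * (N : ℝ) ^ 3 := mul_le_mul_of_nonneg_right this (by positivity)
        _ = _ := by ring
    have e4 := small_of (N := N) (by linarith) 5 0
      (a := 4 * C * T^[6] N ^ 2 - T^[5] N / 2) (by
        have := h9.2
        have e5 : Real.log N ≤ C * Real.log N := le_mul_of_one_le_left hlog hC
        have e6 : 0 ≤ C * T^[6] N ^ 2 := by positivity
        push_cast
        linarith)
    rw [Real.exp_sub, pow_zero, div_one, ← mul_div_assoc, div_le_one (Real.exp_pos _)] at e4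
    exact (mul_le_mul e3 e2 (by positivity) (by positivity)).trans e4
  · have e1 := small_of (N := N) (by linarith) 4 8 (a := -T^[9] N) (by push_cast; linarith)
    have e2 : 6 * (N : ℝ) ^ 3 * Real.exp (-T^[9] N) ≤ 1 / (N : ℝ) ^ 8 := by
      refine le_trans (mul_le_mul_of_nonneg_right ?_ (Real.exp_pos _).le) e1
      have : 0 ≤ (N : ℝ) ^ 3 := by positivity
      nlinarith
    have e3 : ((N : ℝ) + 2) ^ 2 ≤ 4 * (N : ℝ) ^ 2 := by nlinarith
    have hN0 : (0 : ℝ) < N := by linarith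
    calc _ ≤ (4 * (N : ℝ) ^ 2) * (1 / (N : ℝ) ^ 8 + 1 / (N : ℝ) ^ 8) :=
          mul_le_mul e3 (add_le_add e2 le_rfl) (by positivity) (by positivity)
      _ = 8 / N * (1 / (N : ℝ) ^ 5) := by field_simp; ring
      _ ≤ 1 * (1 / (N : ℝ) ^ 5) :=
          mul_le_mul_of_nonneg_right ((div_le_one hN0).2 hN) (by positivity)
      _ = _ := one_mul _

open scoped Pointwise in
/-- **Lemma B**: the double difference. -/
theorem dif_ev (hT : Scale T) (hg : Gau len gau gap C) (hp : Path z) (ht : S.Tail len T)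
    (hw : S.NearWall gap T z) {Q : Set G} (hQ : IsCompact Q) :
    ∀ᶠ N : ℕ in atTop, ∀ h ∈ Q, ∀ k ∈ Q, ∀ s ∈ Q,
      ‖S.dif (cut len gau N) h (k * z N) s‖ ≤ 1 / (N : ℝ) ^ 4 := by
  obtain ⟨Q', hQ', hl⟩ := lev_ev hT hg hp ht hQ
  have hC := hg.one_le
  filter_upwards [hl 4, hl 2, dc_ev (S := S) hT hg 3, far_ev hT hg hp ht hQ, hg.cut_ev, hw,
    amp_ev hT hg hp ht hw ((hQ.union (hQ.mul hQ)).insert 1), hT.lin 1 (C := 2 * C) (by linarith),
    hT.anti 2 1, hT.anti 1 2, tendsto_natCast_atTop_atTop.eventually (hT.big 5 12),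
    eventually_ge_atTop 11] with N h1 h2 h3 h4 h5 h6 h7 h8 h9 h10 h11 h12 h hh k hk s hs
  have hN : (11 : ℝ) ≤ N := by exact_mod_cast h12
  have hN0 : (0 : ℝ) < N := by linarith
  have hlog : 0 ≤ Real.log N := Real.log_nonneg (by linarith)
  obtain ⟨a⟩ := h1.la h (hQ' hh)
  obtain ⟨b⟩ := h1.ra s (hQ' hs)
  obtain ⟨a'⟩ := h2.la k (hQ' hk)
  have n1 := h7 k (Or.inr (Or.inl hk)) s (Or.inr (Or.inl hs))
  have n2 := h7 (h * k) (Or.inr (Or.inr (Set.mul_mem_mul hh hk))) 1 (Or.inl rfl)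
  have n3 := h7 k (Or.inr (Or.inl hk)) 1 (Or.inl rfl)
  rw [mul_one] at n2 n3
  rw [mul_assoc] at n2
  have m1 := a'.mass (E := {γ | gap γ ≤ T^[3] N}) (E' := {γ | gap γ ≤ T N}) (fun u hu γ hγ => by
    have e1 := hg.gap_le _ h8.1 u γ hu
    have e2 := h8.2
    have e3 : T^[2] N ≤ C * T^[2] N := le_mul_of_one_le_left (by linarith [h8.1]) hC
    have e4 : 0 ≤ C * Real.log N := by positivity
    simp only [Set.mem_setOf_eq, Function.iterate_one] at hγ e2 ⊢
    linarith) (z N)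
  have m2 : Real.exp (-T N) ≤ Real.exp (-T^[3] N) := Real.exp_le_exp.2 (neg_le_neg h10)
  have d := h3 h s _ a b (k * z N) (by linarith) ((h4 N le_rfl).2 k hk)
  have key := Sys.dif_le h5 a b (k * z N) n1 n2 n3
  have e1 := small_of hN0 4 5 (a := -T^[5] N) (by push_cast; linarith)
  have e2 := small_of hN0 1 5 (a := -T^[5] N / 2) (by push_cast; linarith)
  have e3 : Real.exp (-T^[5] N) * Real.exp (T^[5] N / 2) = Real.exp (-T^[5] N / 2) := by
    rw [← Real.exp_add]; congr 1; ring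
  have e4 : 4 * (N : ℝ) ^ 3 * Real.exp (-T^[5] N) ≤ (N : ℝ) ^ 4 * Real.exp (-T^[5] N) := by
    refine mul_le_mul_of_nonneg_right ?_ (Real.exp_pos _).le
    have : 0 ≤ (N : ℝ) ^ 3 := by positivity
    nlinarith
  have e5 : 4 * Real.exp (-T^[5] N / 2) ≤ (N : ℝ) ^ 1 * Real.exp (-T^[5] N / 2) :=
    mul_le_mul_of_nonneg_right (by linarith) (Real.exp_pos _).le
  have e6 : 1 / (N : ℝ) ^ 8 ≤ 1 / (N : ℝ) ^ 5 :=
    one_div_le_one_div_of_le (by positivity) (pow_le_pow_right₀ (by linarith) (by norm_num))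
  have e7 : 11 * (1 / (N : ℝ) ^ 5) ≤ 1 / (N : ℝ) ^ 4 := by
    calc 11 * (1 / (N : ℝ) ^ 5) = 11 / N * (1 / (N : ℝ) ^ 4) := by field_simp
      _ ≤ 1 * (1 / (N : ℝ) ^ 4) :=
          mul_le_mul_of_nonneg_right ((div_le_one hN0).2 hN) (by positivity)
      _ = _ := one_mul _
  rw [e3] at key
  linarith

end Vale.Agent.P092WN
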