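import Vale.Agent.P092WN.Coc
import Vale.Agent.P092GK.Gauge
import Vale.Agent.P092LG.PP

/-!
P092 (helper20), block B6: the gauge, the path and the central element in a group with a flag
package.
-/

set_option linter.all false

open Filter Topology MeasureTheory
open scoped Pointwise

namespace Vale.Agent.P092WN

open Vale.Agent.P092GK Vale.Agent.P092LG
open Vale.Agent.P092.H933 (URep)

variable {G : Type} [Group G] [TopologicalSpace G] [IsTopologicalGroup G]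

theorem cover {K V : Set G} (hK : IsCompact K) (hV : V ∈ 𝓝 (1 : G)) :
    ∃ E : Finset G, ∀ k ∈ K, ∃ e ∈ E, e⁻¹ * k ∈ V := by
  obtain ⟨E, -, hE⟩ := hK.elim_nhds_subcover (fun e => (fun k => e⁻¹ * k) ⁻¹' V) fun e _ =>
    (continuous_const.mul continuous_id).continuousAt.preimage_mem_nhds (by simpa using hV)
  exact ⟨E, fun k hk => by simpa using hE hk⟩

theorem card_exp (m : ℕ) : ∃ D : ℝ, 1 ≤ D ∧ ∀ n : ℕ, ((m ^ n : ℕ) : ℝ) ≤ Real.exp (D * n) := by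
  refine ⟨m + 1, by simp, fun n => ?_⟩
  rw [mul_comm, Real.exp_nat_mul, Nat.cast_pow]
  exact pow_le_pow_left₀ (Nat.cast_nonneg m) (by linarith [Real.add_one_le_exp ((m : ℝ) + 1)]) n

/-- the covering numbers along a path with bounded steps are exponential -/
theorem Path.of [LocallyCompactSpace G] {z : ℕ → G} (h0 : z 0 = 1)
    (hc : ∀ n m, z n * z m = z m * z n)
    (hs : ∃ Q : Set G, IsCompact Q ∧ ∀ n, (z n)⁻¹ * z (n + 1) ∈ Q)
    (hi : ∃ K : Set G, IsCompact K ∧ ∀ g, ∃ k ∈ K, St z (k⁻¹ * g)) : Path z := by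
  classical
  refine ⟨h0, hc, hs, ?_⟩
  obtain ⟨S, hS, hs⟩ := hs
  obtain ⟨K, hK, hi⟩ := hi
  obtain ⟨Q, hQ, hQ1⟩ := exists_compact_mem_nhds (1 : G)
  have hW : ∀ᶠ w in 𝓝 (1 : G), ∀ s ∈ S, s⁻¹ * w * s ∈ Q := by
    refine hS.eventually_forall_of_forall_eventually fun s _ => ?_
    have : Continuous fun p : G × G => p.2⁻¹ * p.1 * p.2 := by fun_prop
    exact this.continuousAt.preimage_mem_nhds (by simpa using hQ1)
  obtain ⟨E, hE⟩ := cover hQ hW
  obtain ⟨E₀, hE₀⟩ := cover hK hQ1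
  obtain ⟨D, -, hD⟩ := card_exp (E.card + E₀.card)
  have key : ∀ n : ℕ, ∃ F : Finset G, F.card ≤ (E.card + E₀.card) ^ (n + 1) ∧
      ∀ k ∈ K, ∃ e ∈ F, (z n)⁻¹ * (e⁻¹ * k) * z n ∈ Q := by
    intro n
    induction n with
    | zero => exact ⟨E₀, by simp, fun k hk => by simpa [h0] using hE₀ k hk⟩
    | succ n ih =>
      obtain ⟨F, h1, h2⟩ := ih
      refine ⟨(F ×ˢ E).image fun p => p.1 * (z n * p.2 * (z n)⁻¹),
        Finset.card_image_le.trans ?_, fun k hk => ?_⟩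
      · rw [Finset.card_product, pow_succ _ (n + 1)]
        exact Nat.mul_le_mul h1 (Nat.le_add_right _ _)
      · obtain ⟨e, he, h3⟩ := h2 k hk
        obtain ⟨e', he', h4⟩ := hE _ h3
        refine ⟨_, Finset.mem_image.2 ⟨(e, e'), Finset.mem_product.2 ⟨he, he'⟩, rfl⟩, ?_⟩
        have h5 := h4 _ (hs n)
        refine (congrArg (· ∈ Q) ?_).mp h5
        group
  refine ⟨K, hK, hi, Q⁻¹ * Q, hQ.inv.mul hQ, D, fun n => ?_⟩
  obtain ⟨F, h1, h2⟩ := key n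
  have h3 : ∀ e, ∃ k, (∃ k ∈ K, (z n)⁻¹ * (e⁻¹ * k) * z n ∈ Q) →
      k ∈ K ∧ (z n)⁻¹ * (e⁻¹ * k) * z n ∈ Q := fun e => by
    by_cases h : ∃ k ∈ K, (z n)⁻¹ * (e⁻¹ * k) * z n ∈ Q
    · exact ⟨h.choose, fun _ => h.choose_spec⟩
    · exact ⟨1, fun h' => absurd h' h⟩
  choose ρ hρ using h3
  refine ⟨(F.filter fun e => ∃ k ∈ K, (z n)⁻¹ * (e⁻¹ * k) * z n ∈ Q).image ρ, fun x hx => ?_, ?_,
    fun k hk => ?_⟩
  · obtain ⟨e, he, rfl⟩ := Finset.mem_image.1 hx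
    exact (hρ e (Finset.mem_filter.1 he).2).1
  · have h4 := hD (n + 1)
    rw [Nat.cast_succ] at h4
    refine le_trans ?_ h4
    exact_mod_cast Finset.card_image_le.trans ((Finset.card_filter_le _ _).trans h1)
  · obtain ⟨e, he, h4⟩ := h2 k hk
    refine ⟨ρ e, Finset.mem_image_of_mem _ (Finset.mem_filter.2 ⟨he, k, hk, h4⟩), ?_⟩
    have h5 := Set.mul_mem_mul (Set.inv_mem_inv.2 (hρ e ⟨k, hk, h4⟩).2) h4
    refine (congrArg (· ∈ Q⁻¹ * Q) ?_).mp h5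
    group

/-- a discrete subgroup has exponentially many points in the powers of a compact set -/
theorem card_pow [LocallyCompactSpace G] (Γ : Subgroup G) [DiscreteTopology Γ] {S : Set G}
    (hS : IsCompact S) : ∃ D : ℝ, 1 ≤ D ∧ ∀ (n : ℕ) (F : Finset Γ),
      (∀ γ ∈ F, (γ : G) ∈ S ^ n) → (F.card : ℝ) ≤ Real.exp (D * n) := by
  classical
  obtain ⟨U, hU, hU1⟩ : ∃ U ∈ 𝓝 (1 : G), ∀ γ : Γ, (γ : G) ∈ U → γ = 1 := by
    have h := (isOpen_discrete ({1} : Set Γ)).mem_nhds rfl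
    rw [nhds_induced, mem_comap] at h
    obtain ⟨U, h1, h2⟩ := h
    exact ⟨U, h1, fun γ hγ => h2 hγ⟩
  obtain ⟨V₀, hV₀, hV⟩ := exists_nhds_split_inv hU
  obtain ⟨V, hV1, hV2, hV3⟩ := local_compact_nhds (inv_mem_nhds_one G hV₀)
  obtain ⟨E, hE⟩ := cover (hV3.mul hS) hV1
  obtain ⟨D, hD1, hD⟩ := card_exp E.card
  have key : ∀ n : ℕ, ∃ F : Finset G, F.card ≤ E.card ^ n ∧ ∀ x ∈ S ^ n, ∃ e ∈ F, e⁻¹ * x ∈ V := by
    intro n
    induction n with
    | zero => exact ⟨{1}, by simp, fun x hx => ⟨1, by simp, by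
        rw [pow_zero, Set.mem_one] at hx; simpa [hx] using mem_of_mem_nhds hV1⟩⟩
    | succ n ih =>
      obtain ⟨F, h1, h2⟩ := ih
      refine ⟨(F ×ˢ E).image fun p => p.1 * p.2, Finset.card_image_le.trans ?_, fun x hx => ?_⟩
      · rw [Finset.card_product, pow_succ]
        exact Nat.mul_le_mul_right _ h1
      · rw [pow_succ] at hx
        obtain ⟨y, hy, s, hs, rfl⟩ := hx
        obtain ⟨e, he, h3⟩ := h2 y hy
        obtain ⟨e', he', h4⟩ := hE _ (Set.mul_mem_mul h3 hs)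
        exact ⟨_, Finset.mem_image.2 ⟨(e, e'), Finset.mem_product.2 ⟨he, he'⟩, rfl⟩, by
          simpa [mul_assoc] using h4⟩
  refine ⟨D, hD1, fun n F hF => le_trans ?_ (hD n)⟩
  obtain ⟨F', h1, h2⟩ := key n
  choose! e he h3 using h2
  have h4 := Finset.card_le_card_of_injOn (s := F) (t := F') (fun γ => e γ)
    (fun γ hγ => he _ (hF γ hγ)) fun γ hγ δ hδ h => by
      have h5 := hV _ (hV2 (h3 _ (hF γ hγ))) _ (hV2 (h3 _ (hF δ hδ)))
      simp only at h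
      have h6 := hU1 (γ⁻¹ * δ) (by simpa [h, div_eq_mul_inv, mul_assoc] using h5)
      exact inv_mul_eq_one.1 h6
  exact_mod_cast h4.trans h1

variable {k : Type} [NontriviallyNormedField k] {r : ℕ} {F : FlD k G r}

theorem a_mem_pow (h : Fl F) {S : Set G} (h1 : (1 : G) ∈ S)
    (hS : ∀ t : Fin r → ℤ, (∀ i, 0 ≤ t i ∧ t i ≤ 1) → F.a t ∈ S) (n : ℕ) (t : Fin r → ℤ)
    (ht : ∀ i, 0 ≤ t i ∧ t i ≤ n) : F.a t ∈ S ^ n := by
  induction n generalizing t with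
  | zero =>
    have : t = 0 := funext fun i => le_antisymm (by simpa using (ht i).2) (ht i).1
    rw [this, h.a_zero, pow_zero]; rfl
  | succ n ih =>
    have e : t = (fun i => t i - min (t i) 1) + fun i => min (t i) 1 := by funext i; simp
    rw [e, h.a_add, pow_succ]
    refine Set.mul_mem_mul (ih _ fun i => ?_) (hS _ fun i => ?_)
    · have := ht i
      push_cast at this
      omega
    · have := ht i
      omega

variable [T2Space G] [ProperSpace k]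

theorem len_pow_cpt (h : Fl F) : ∃ S : Set G, IsCompact S ∧ ∃ A : ℝ, 1 ≤ A ∧
    ∀ J : ℝ, 1 ≤ J → ∃ n : ℕ, (n : ℝ) ≤ A * J ∧ ∀ g, F.len g ≤ J → g ∈ S ^ n := by
  obtain ⟨K, hK, h1⟩ := h.kak
  obtain ⟨C₁, hC₁, h2⟩ := h.κ_cpt hK
  obtain ⟨C₂, hC₂, h3⟩ := h.κ_le_len
  have hfin : (F.a '' {t | ∀ i, 0 ≤ t i ∧ t i ≤ 1}).Finite :=
    Set.Finite.image _ ((Set.Finite.pi' fun _ => Set.finite_Icc (0 : ℤ) 1).subset
      fun t ht i => ht i)
  have hβ := h.β_pos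
  refine ⟨insert 1 (K ∪ F.a '' {t | ∀ i, 0 ≤ t i ∧ t i ≤ 1}), (hK.union hfin.isCompact).insert 1,
    (C₁ + C₂) / F.β + 3, by have : 0 ≤ (C₁ + C₂) / F.β := by positivity
                            linarith, fun J hJ => ⟨1 + ⌈(C₁ + C₂) / F.β * J⌉₊ + 1, ?_, fun g hg => ?_⟩⟩
  · have := (Nat.ceil_lt_add_one (show 0 ≤ (C₁ + C₂) / F.β * J by positivity)).le
    push_cast
    linarith
  · obtain ⟨x, hx, t, ht, y, hy, rfl⟩ := h1 g
    rw [pow_succ, pow_add, pow_one]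
    refine Set.mul_mem_mul (Set.mul_mem_mul (Or.inr (Or.inl hx)) (a_mem_pow h (Or.inl rfl)
      (fun t ht => Or.inr (Or.inr ⟨t, ht, rfl⟩)) _ t fun i => ⟨ht i, ?_⟩)) (Or.inr (Or.inl hy))
    have h4 := abs_le.1 (h2 _ (h.a_dom ht) x hx y hy i)
    have h5 := (le_abs_self _).trans ((norm_le_pi_norm (F.κ (x * F.a t * y)) i).trans (h3 _))
    rw [h.ℓ_a] at h4
    have h6 : (t i : ℝ) ≤ (C₁ + C₂) / F.β * J := by
      rw [div_mul_eq_mul_div, le_div_iff₀ hβ]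
      nlinarith [h4.1]
    exact_mod_cast h6.trans (Nat.le_ceil _)

/-- **The gauge of the position** `γ⁻¹` on a discrete subgroup. -/
theorem gau_fl [LocallyCompactSpace G] (h : Fl F) (Γ : Subgroup G) [DiscreteTopology Γ] :
    ∃ C, ∀ j, Gau (fun γ : Γ => F.len γ) (fun γ => F.lam (γ : G)⁻¹ j) (fun γ => F.κ (γ : G)⁻¹ j) C := by
  obtain ⟨S, hS, A, hA, h1⟩ := len_pow_cpt h
  obtain ⟨D, hD, h2⟩ := card_pow Γ hS
  obtain ⟨C₁, hC₁, h3⟩ := h.κ_lip
  obtain ⟨C₂, hC₂, h4⟩ := h.lam_second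
  have hDA : 0 ≤ D * A := by positivity
  refine ⟨D * A + C₁ + C₂ + 6, fun j => ⟨by linarith, fun _ => FlD.len_nonneg _,
    fun s t => h.len_mul _ _, fun J hJ E hE => ?_, fun γ => ?_, fun J hJ s γ hs => ?_,
    fun J hJ s t γ hs ht _ => ?_⟩⟩
  · obtain ⟨n, h5, h6⟩ := h1 J hJ
    refine (h2 n E fun γ hγ => h6 _ (hE γ hγ)).trans (Real.exp_le_exp.2 ?_)
    nlinarith
  · have h5 := h.abs_lam_le (γ : G)⁻¹ j
    rw [FlD.len_inv] at h5
    have h6 := FlD.len_nonneg (F := F) (γ : G)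
    nlinarith
  · have h5 := (norm_le_pi_norm _ j).trans (h3 1 (γ : G)⁻¹ (s : G)⁻¹)
    rw [h.len_one, FlD.len_inv, one_mul, zero_add, Pi.sub_apply] at h5
    have h6 := (abs_le.1 h5).1
    simp only [Subgroup.coe_mul, mul_inv_rev] at hs ⊢
    nlinarith
  · have h5 := h4 (t : G)⁻¹ (γ : G)⁻¹ (s : G)⁻¹ j
    rw [FlD.len_inv, FlD.len_inv] at h5
    simp only [Subgroup.coe_mul, mul_inv_rev, ← mul_assoc] at hs ht ⊢
    refine h5.trans ((mul_le_mul_of_nonneg_right (show C₂ ≤ Real.exp C₂ by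
      linarith [Real.add_one_le_exp C₂]) (Real.exp_pos _).le).trans ?_)
    rw [← Real.exp_add]
    refine Real.exp_le_exp.2 ?_
    nlinarith

omit [ProperSpace k] in
theorem st_P (h : Fl F) {t : ℕ → Fin r → ℤ} (ht : ∀ n, 0 ≤ t n) {z u : G} (hz : z ∈ F.Z)
    (hu : u ∈ F.Up) : St (fun n => F.a (t n)) (z * u) := by
  obtain ⟨L, hL, -, h1⟩ := h.up_bdd (isCompact_singleton (x := u))
  refine (St.of_comm fun n => (h.a_comm _ hz).symm).mul ⟨L, hL, Eventually.of_forall fun n => ?_⟩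
  exact h1 _ (h.a_dom (ht n)) u rfl hu

omit [ProperSpace k] in
/-- **A path in the chamber.** -/
theorem path_fl [LocallyCompactSpace G] (h : Fl F) {t : ℕ → Fin r → ℤ} (h0 : t 0 = 0)
    (ht : ∀ n, 0 ≤ t n) {B : ℤ} (hB : ∀ n i, |t (n + 1) i - t n i| ≤ B) :
    Path fun n => F.a (t n) := by
  have hfin : {s : Fin r → ℤ | ∀ i, |s i| ≤ B}.Finite :=
    (Set.Finite.pi' fun _ => Set.finite_Icc (-B) B).subset fun s hs i => abs_le.1 (hs i)
  refine Path.of (by simp only [h0, h.a_zero]) (fun n m => h.a_comm _ (h.a_mem _))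
    ⟨_, (hfin.image F.a).isCompact, fun n => ⟨t (n + 1) - t n, hB n, ?_⟩⟩ ?_
  · rw [← h.a_neg, ← h.a_add, neg_add_eq_sub]
  · obtain ⟨C, hC, h1⟩ := h.iwa
    refine ⟨C, hC, fun g => ?_⟩
    obtain ⟨x, hx, z, hz, u, hu, rfl⟩ := h1 g
    refine ⟨x, hx, ?_⟩
    rw [mul_assoc, inv_mul_cancel_left]
    exact st_P h ht hz hu

omit [ProperSpace k] in
/-- **The central element.** -/
theorem cen_of_pp [LocallyCompactSpace G] [SecondCountableTopology G] [MeasurableSpace G]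
    [BorelSpace G] (μ : Measure G) [μ.IsHaarMeasure] [μ.IsMulRightInvariant] (hG : Geo G) {I : Type}
    {S : I → Set G} (hS : HMF S) {H₀ : Type} [NormedAddCommGroup H₀] [InnerProductSpace ℂ H₀]
    [CompleteSpace H₀] {σ : G →* (H₀ →L[ℂ] H₀)} (hσ : URep σ) (hN : ∀ i, NoFix σ (S i))
    {z : ℕ → G} {b : G} (hz : ∀ n, b * z n = z n * b)
    (hb : ¬ IsCompact (closure (Set.range fun n : ℕ => b ^ n))) {p : ℕ} (hp : 4 < p)
    {s : Fin p → G} (hs : PP s) (hc : ∀ i, b * s i = s i * b) : Cen σ z b := by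
  obtain ⟨E, _, _, _, ρ, sq, h1⟩ := exists_sq hσ
  obtain ⟨κ, hκ, h2⟩ := gap_true μ hG hS hp
  refine ⟨hz, fun v hv => (hS.c0 hσ hN).noFix hb v ?_, p, s, by omega, hc, E, _, _, ρ, sq, h1.inn,
    h1.cov, 1 - κ, by linarith, fun v => (h2 E ρ h1.rep (h1.noFix hS hσ hN) s hs v).1⟩
  rintro _ ⟨n, rfl⟩
  induction n with
  | zero => simp
  | succ n ih =>
    simp only at ih ⊢
    rw [pow_succ, map_mul, ContinuousLinearMap.mul_apply, hv, ih]

end Vale.Agent.P092WN
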