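import Vale.Agent.P092WN.Coc
import Mathlib.Analysis.PSeries
import Mathlib.Algebra.Order.Chebyshev

/-!
P092 (helper20), block B6: the limit cocycle is a coboundary on the centraliser.
-/

set_option linter.all false

open Filter Topology
open scoped InnerProductSpace

namespace Vale.Agent.P092WN

/-- words of length `n` -/
def Wd (p : ℕ) : ℕ → Type
  | 0 => Unit
  | n + 1 => Wd p n × Fin p

/-- there are finitely many words -/
instance wdFin (p : ℕ) : ∀ n, Fintype (Wd p n)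
  | 0 => inferInstanceAs (Fintype Unit)
  | n + 1 => @instFintypeProd _ _ (wdFin p n) inferInstance

theorem sum_wd0 {p : ℕ} {M : Type} [AddCommMonoid M] (f : Wd p 0 → M) : ∑ w, f w = f () :=
  Fintype.sum_unique (ι := Unit) f

theorem sum_wd {p n : ℕ} {M : Type} [AddCommMonoid M] (f : Wd p (n + 1) → M) :
    ∑ w, f w = ∑ w : Wd p n, ∑ i : Fin p, f (w, i) :=
  Fintype.sum_prod_type (α₁ := Wd p n) (α₂ := Fin p) f

theorem card_wd (p n : ℕ) : Fintype.card (Wd p n) = p ^ n := by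
  induction n with
  | zero => exact Fintype.card_unit
  | succ n ih => rw [pow_succ, ← ih]; exact (Fintype.card_prod (Wd p n) (Fin p)).trans (by simp)

variable {G : Type} [Group G] {p : ℕ}

/-- the value of a word -/
def wd (s : Fin p → G) : ∀ n, Wd p n → G
  | 0, _ => 1
  | n + 1, w => wd s n w.1 * s w.2

theorem wd_comm {s : Fin p → G} {b : G} (h : ∀ i, b * s i = s i * b) (n : ℕ) (w : Wd p n) :
    b * wd s n w = wd s n w * b := by
  induction n with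
  | zero => simp [wd]
  | succ n ih => rw [wd, ← mul_assoc, ih, mul_assoc, h, mul_assoc]

theorem pow_wd {E : Type} [NormedAddCommGroup E] [InnerProductSpace ℂ E] (ρ : G →* (E →L[ℂ] E))
    (s : Fin p → G) {θ : ℝ} (hθ : 0 ≤ θ) (h : ∀ v, ‖∑ i, ρ (s i) v‖ ≤ θ * ‖v‖) (n : ℕ) (v : E) :
    ‖∑ w, ρ (wd s n w) v‖ ≤ θ ^ n * ‖v‖ := by
  induction n generalizing v with
  | zero => exact le_of_eq (by rw [sum_wd0]; simp [wd])
  | succ n ih =>
    have e : ∑ w, ρ (wd s (n + 1) w) v = ∑ w, ρ (wd s n w) (∑ i, ρ (s i) v) := by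
      rw [sum_wd]
      simp only [wd, map_mul, map_sum, ContinuousLinearMap.mul_apply]
    rw [e, pow_succ, mul_assoc]
    exact (ih _).trans (mul_le_mul_of_nonneg_left (h v) (pow_nonneg hθ n))

variable {H₀ : Type} [NormedAddCommGroup H₀] [InnerProductSpace ℂ H₀] {σ : G →* (H₀ →L[ℂ] H₀)}

/-- all the partial sums over words decay -/
def Dom (σ : G →* (H₀ →L[ℂ] H₀)) (s : Fin p → G) (κ : ℝ) : Prop :=
  ∀ (n : ℕ) (F : Finset (Wd p n)) (v : H₀), ‖∑ w ∈ F, σ (wd s n w) v‖ ≤ (p * κ) ^ n * ‖v‖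

theorem dom_of_sq {s : Fin p → G} (hp : 0 < p) {E : Type} [NormedAddCommGroup E]
    [InnerProductSpace ℂ E] {ρ : G →* (E →L[ℂ] E)} {sq : H₀ → E}
    (h1 : ∀ x y, ⟪sq x, sq y⟫_ℂ = ((‖⟪x, y⟫_ℂ‖ ^ 2 : ℝ) : ℂ)) (h2 : ∀ g x, ρ g (sq x) = sq (σ g x))
    {θ : ℝ} (hθ : θ < 1) (h3 : ∀ v, ‖((p : ℂ))⁻¹ • ∑ i, ρ (s i) v‖ ≤ θ * ‖v‖) :
    ∃ κ, 0 < κ ∧ κ < 1 ∧ Dom σ s κ := by
  have hp' : (0 : ℝ) < p := by exact_mod_cast hp
  have hm : 0 ≤ max θ 0 := le_max_right _ _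
  have hm1 : max θ 0 < 1 := max_lt hθ zero_lt_one
  refine ⟨(1 + max θ 0) / 2, by linarith, by linarith, fun n F v => ?_⟩
  set κ := (1 + max θ 0) / 2 with hκ
  have hκ0 : 0 < κ := by linarith
  have hκ2 : θ ≤ κ ^ 2 := by nlinarith [le_max_left θ 0, sq_nonneg (1 - max θ 0)]
  have hn : ∀ x, ‖sq x‖ = ‖x‖ ^ 2 := fun x => by
    have h4 := h1 x x
    rw [inner_self_eq_norm_sq_to_K, inner_self_eq_norm_sq_to_K] at h4
    have h5 : ‖sq x‖ ^ 2 = (‖x‖ ^ 2) ^ 2 := by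
      have h6 := congrArg Complex.re h4
      simp only [Complex.coe_algebraMap, ← Complex.ofReal_pow, Complex.ofReal_re, Complex.norm_real,
        norm_pow, norm_norm] at h6
      exact h6
    exact (pow_left_inj₀ (norm_nonneg _) (by positivity) two_ne_zero).1 h5
  have h4 := pow_wd ρ s (θ := p * κ ^ 2) (by positivity) (fun x => by
    have h5 := h3 x
    rw [norm_smul, norm_inv, Complex.norm_natCast, inv_mul_le_iff₀ hp'] at h5
    refine h5.trans ?_
    rw [mul_assoc]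
    gcongr) n (sq v)
  set u := ∑ w ∈ F, σ (wd s n w) v with hu
  have h5 : ∑ w, ‖⟪u, σ (wd s n w) v⟫_ℂ‖ ^ 2 ≤ (p * κ ^ 2) ^ n * ‖v‖ ^ 2 * ‖u‖ ^ 2 := by
    have e : ⟪sq u, ∑ w, ρ (wd s n w) (sq v)⟫_ℂ = ((∑ w, ‖⟪u, σ (wd s n w) v⟫_ℂ‖ ^ 2 : ℝ) : ℂ) := by
      rw [inner_sum]
      push_cast
      exact Finset.sum_congr rfl fun w _ => by rw [h2, h1]; push_cast; rfl
    have h6 := norm_inner_le_norm (𝕜 := ℂ) (sq u) (∑ w, ρ (wd s n w) (sq v))
    rw [e, Complex.norm_real, hn] at h6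
    rw [hn] at h4
    refine (le_abs_self _).trans (h6.trans ?_)
    rw [mul_comm]
    exact mul_le_mul_of_nonneg_right h4 (by positivity)
  have h6 : ‖u‖ ^ 2 ≤ ∑ w, ‖⟪u, σ (wd s n w) v⟫_ℂ‖ := by
    have e : ‖u‖ ^ 2 = ‖∑ w ∈ F, ⟪u, σ (wd s n w) v⟫_ℂ‖ := by
      rw [← inner_sum, ← hu, inner_self_eq_norm_sq_to_K]; simp
    rw [e]
    exact (norm_sum_le _ _).trans (Finset.sum_le_sum_of_subset_of_nonneg (Finset.subset_univ F)
      fun _ _ _ => norm_nonneg _)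
  have h7 := sq_sum_le_card_mul_sum_sq (s := Finset.univ) (f := fun w => ‖⟪u, σ (wd s n w) v⟫_ℂ‖)
  rw [Finset.card_univ, card_wd] at h7
  have h8 : (‖u‖ ^ 2) ^ 2 ≤ ((p * κ) ^ n * ‖v‖ * ‖u‖) ^ 2 := by
    calc _ ≤ _ := pow_le_pow_left₀ (by positivity) h6 2
      _ ≤ _ := h7
      _ ≤ ((p ^ n : ℕ) : ℝ) * ((p * κ ^ 2) ^ n * ‖v‖ ^ 2 * ‖u‖ ^ 2) :=
          mul_le_mul_of_nonneg_left h5 (by positivity)
      _ = _ := by push_cast; simp only [mul_pow]; ring
  have h9 := (pow_le_pow_iff_left₀ (by positivity) (by positivity) two_ne_zero).1 h8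
  rcases (norm_nonneg u).eq_or_lt with h | h
  · rw [← h]; positivity
  · rw [pow_two] at h9
    exact le_of_mul_le_mul_right h9 h

theorem Dom.cells {s : Fin p → G} {κ : ℝ} (hd : Dom σ s κ) (hκ : 0 ≤ κ)
    (iso : ∀ g v, ‖σ g v‖ = ‖v‖) (n : ℕ) {Φ : Wd p n → H₀} {F : Finset G} {v : G → H₀} {B ω : ℝ}
    (hB : ∀ e ∈ F, ‖v e‖ ≤ B) (h : ∀ w, ∃ e ∈ F, ‖Φ w - v e‖ ≤ ω) :
    ‖∑ w, σ (wd s n w) (Φ w)‖ ≤ F.card * ((p * κ) ^ n * B) + p ^ n * ω := by
  classical
  choose e he hω using h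
  have e1 : ∑ w, σ (wd s n w) (Φ w) =
      ∑ x ∈ F, ∑ w ∈ Finset.univ.filter (fun w => e w = x), σ (wd s n w) (v x) +
        ∑ w, σ (wd s n w) (Φ w - v (e w)) := by
    rw [Finset.sum_congr rfl (g := fun x => ∑ w ∈ Finset.univ.filter (fun w => e w = x),
      σ (wd s n w) (v (e w))) fun x _ => Finset.sum_congr rfl fun w hw => by
        rw [(Finset.mem_filter.1 hw).2],
      Finset.sum_fiberwise_of_maps_to fun w _ => he w, ← Finset.sum_add_distrib]
    exact Finset.sum_congr rfl fun w _ => by rw [map_sub]; abel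
  rw [e1]
  refine (norm_add_le _ _).trans (add_le_add ?_ ?_)
  · refine (norm_sum_le _ _).trans ((Finset.sum_le_card_nsmul _ _ _ fun x hx =>
      (hd n _ _).trans (mul_le_mul_of_nonneg_left (hB x hx) (by positivity))).trans ?_)
    rw [nsmul_eq_mul]
  · refine (norm_sum_le _ _).trans ((Finset.sum_le_card_nsmul _ _ ω fun w _ => by
      rw [iso]; exact hω w).trans ?_)
    rw [nsmul_eq_mul, Finset.card_univ, card_wd]
    push_cast
    exact le_rfl

variable [TopologicalSpace G] [IsTopologicalGroup G] {z : ℕ → G} {X : ℕ → G → H₀}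
  {c : G → G → H₀}

theorem Coc.summable (hc : Coc σ z X c) (hX : Ap σ z X) (hz : Path z) {s : Fin p → G} (hp : 0 < p)
    {κ : ℝ} (h0 : 0 < κ) (h1 : κ < 1) (hd : Dom σ s κ) (g g' : G) :
    Summable fun n => ‖((p : ℂ) ^ n)⁻¹ • ∑ w, σ (wd s n w) (c g (g' * (wd s n w)⁻¹))‖ := by
  obtain ⟨B, D, h2⟩ := hc.cells hX hz g
  obtain ⟨n₀, hn₀⟩ := eventually_atTop.1 h2
  have hp' : (0 : ℝ) < p := by exact_mod_cast hp
  have h3 : Tendsto (fun q : ℕ => Real.exp (|D| / q) * κ) atTop (𝓝 (Real.exp 0 * κ)) :=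
    ((Real.continuous_exp.tendsto 0).comp (tendsto_const_div_atTop_nhds_zero_nat _)).mul_const κ
  obtain ⟨q, h4, hq⟩ := ((h3.eventually (gt_mem_nhds (show Real.exp 0 * κ < 1 by simpa))).and
    (eventually_ge_atTop 1)).exists
  have hq' : (1 : ℝ) ≤ q := by exact_mod_cast hq
  have s1 : Summable fun n : ℕ => Real.exp |D| * |B| * (Real.exp (|D| / q) * κ) ^ n +
      12 * (q : ℝ) ^ 2 * (1 / (n : ℝ) ^ 2) :=
    ((summable_geometric_of_lt_one (by positivity) h4).mul_left _).add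
      ((Real.summable_one_div_nat_pow.2 one_lt_two).mul_left _)
  refine Summable.of_norm_bounded_eventually_nat s1 ?_
  filter_upwards [eventually_ge_atTop (q * (n₀ + 2))] with n hn
  have h5 : n₀ + 2 ≤ n / q := (Nat.le_div_iff_mul_le hq).2 (by rwa [mul_comm])
  obtain ⟨F, h6, h7, h8⟩ := hn₀ (n / q) (by omega)
  have h9 := hd.cells h0.le hX.iso n (Φ := fun w => c g (g' * (wd s n w)⁻¹)) (v := c g) (B := |B|)
    (fun e he => (h7 e he).trans (le_abs_self B)) fun w => h8 _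
  rw [norm_norm, norm_smul, norm_inv, norm_pow, Complex.norm_natCast,
    inv_mul_le_iff₀ (pow_pos hp' n), mul_add]
  refine h9.trans (add_le_add ?_ (mul_le_mul_of_nonneg_left ?_ (by positivity)))
  · have e1 : ((n / q : ℕ) : ℝ) ≤ n / q := Nat.cast_div_le
    have e2 : (F.card : ℝ) ≤ Real.exp |D| * Real.exp (|D| / q) ^ n := by
      rw [← Real.exp_nat_mul, ← Real.exp_add]
      refine h6.trans (Real.exp_le_exp.2 ?_)
      calc D * (((n / q : ℕ) : ℝ) + 1) ≤ |D| * ((n : ℝ) / q + 1) :=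
            mul_le_mul (le_abs_self D) (by linarith) (by positivity) (abs_nonneg D)
        _ = _ := by ring
    calc _ ≤ Real.exp |D| * Real.exp (|D| / q) ^ n * ((p * κ) ^ n * |B|) :=
          mul_le_mul_of_nonneg_right e2 (by positivity)
      _ = _ := by rw [mul_pow, mul_pow]; ring
  · have e1 : (2 : ℝ) ≤ (n / q : ℕ) := by exact_mod_cast (by omega : 2 ≤ n / q)
    have e2 : (n : ℝ) < q * ((n / q : ℕ) + 1) := by exact_mod_cast Nat.lt_mul_div_succ n hq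
    have e3 : (0 : ℝ) < n := by
      have : 0 < n := lt_of_lt_of_le (Nat.mul_pos hq (by omega)) hn
      exact_mod_cast this
    have e4 : (n : ℝ) ≤ 2 * q * (n / q : ℕ) := by nlinarith
    rw [mul_one_div, div_le_div_iff₀ (by positivity) (by positivity)]
    nlinarith [pow_le_pow_left₀ e3.le e4 2]

/-- **The cocycle is a coboundary on the centraliser of `b` in the parabolic subgroup.** -/
theorem Coc.cobound [CompleteSpace H₀] (hc : Coc σ z X c) (hX : Ap σ z X) (hz : Path z) {b : G}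
    (hb : Cen σ z b) : ∃ η, ∀ a, St z a → a * b = b * a → c a 1 = η - σ a η := by
  obtain ⟨hbz, hfix, p, s, hp, hs, E, _, _, ρ, sq, h1, h2, θ, hθ, h3⟩ := hb
  obtain ⟨κ, h4, h5, hd⟩ := dom_of_sq hp h1 h2 hθ h3
  have hst : St z b := St.of_comm hbz
  have hp' : (p : ℂ) ≠ 0 := by exact_mod_cast hp.ne'
  set η : ℕ → H₀ := fun n => ((p : ℂ) ^ n)⁻¹ • ∑ w, c (wd s n w) (wd s n w)⁻¹ with hη
  have e1 : ∀ n, η (n + 1) - η n = (p : ℂ)⁻¹ • ∑ i, ((p : ℂ) ^ n)⁻¹ •
      ∑ w, σ (wd s n w) (c (s i) ((s i)⁻¹ * (wd s n w)⁻¹)) := by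
    intro n
    have e2 : ∀ (w : Wd p n) i, c (wd s (n + 1) (w, i)) (wd s (n + 1) (w, i))⁻¹ =
        c (wd s n w) (wd s n w)⁻¹ + σ (wd s n w) (c (s i) ((s i)⁻¹ * (wd s n w)⁻¹)) := by
      intro w i
      simp only [wd]
      rw [hc.coc, mul_inv_rev, mul_inv_cancel_left]
    simp only [hη]
    rw [sum_wd]
    simp only [e2, Finset.sum_add_distrib, Finset.sum_const, Finset.card_univ, Fintype.card_fin,
      smul_add]
    rw [Finset.sum_comm (s := Finset.univ) (t := Finset.univ), ← Finset.smul_sum,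
      ← Finset.smul_sum, smul_smul, ← Nat.cast_smul_eq_nsmul ℂ, smul_smul, pow_succ]
    rw [show ((p : ℂ) ^ n * p)⁻¹ * p = ((p : ℂ) ^ n)⁻¹ by field_simp, mul_inv_rev]
    abel
  have e2 : CauchySeq η := by
    refine cauchySeq_of_dist_le_of_summable _ (fun n => ?_)
      (summable_sum (s := Finset.univ) fun i _ => hc.summable hX hz hp h4 h5 hd (s i) (s i)⁻¹)
    rw [dist_comm, dist_eq_norm, e1, norm_smul, norm_inv, Complex.norm_natCast]
    refine (mul_le_of_le_one_left (norm_nonneg _) ?_).trans (norm_sum_le _ _)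
    exact inv_le_one_of_one_le₀ (by exact_mod_cast hp)
  obtain ⟨ζ, hζ⟩ := cauchySeq_tendsto_of_complete e2
  have e3 : ∀ n, c b 1 = ((p : ℂ) ^ n)⁻¹ • ∑ w, σ (wd s n w) (c b (1 * (wd s n w)⁻¹)) +
      (η n - σ b (η n)) := by
    intro n
    have e4 : ∀ w : Wd p n, σ (wd s n w) (c b (1 * (wd s n w)⁻¹)) =
        c b 1 - c (wd s n w) (wd s n w)⁻¹ + σ b (c (wd s n w) (wd s n w)⁻¹) := by
      intro w
      have e5 := hc.coc b (wd s n w) (wd s n w)⁻¹
      have e6 := hc.coc (wd s n w) b (wd s n w)⁻¹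
      have e7 : b * (wd s n w)⁻¹ = (wd s n w)⁻¹ * b := by
        rw [eq_inv_mul_iff_mul_eq, ← mul_assoc, ← wd_comm hs, mul_inv_cancel_right]
      rw [← wd_comm hs, e5, e7, hc.inv _ _ _ hst, mul_inv_cancel] at e6
      rw [one_mul, ← sub_eq_zero, ← neg_eq_zero, ← sub_eq_zero.2 e6]
      abel
    simp only [e4, hη, Finset.sum_add_distrib, Finset.sum_sub_distrib, Finset.sum_const,
      Finset.card_univ, card_wd, smul_add, smul_sub, map_smul, map_sum]
    rw [← Nat.cast_smul_eq_nsmul ℂ, smul_smul, Nat.cast_pow, inv_mul_cancel₀ (pow_ne_zero n hp'),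
      one_smul]
    abel
  have e4 : c b 1 = ζ - σ b ζ := by
    have e5 := (tendsto_zero_iff_norm_tendsto_zero.2
      (hc.summable hX hz hp h4 h5 hd b 1).tendsto_atTop_zero).add
      (hζ.sub (((σ b).continuous.tendsto ζ).comp hζ))
    rw [zero_add] at e5
    exact tendsto_nhds_unique (tendsto_const_nhds.congr e3) e5
  refine ⟨ζ, fun a ha hab => ?_⟩
  have e5 := hc.coc a b 1
  have e6 := hc.coc b a 1
  rw [mul_one, ← one_mul b, hc.inv _ _ _ hst, one_mul] at e5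
  rw [mul_one, ← one_mul a, hc.inv _ _ _ ha, one_mul, ← hab, e5, e4] at e6
  have e7 : σ b (σ a ζ) = σ a (σ b ζ) := by
    rw [← ContinuousLinearMap.mul_apply, ← map_mul, ← hab, map_mul, ContinuousLinearMap.mul_apply]
  rw [← sub_eq_zero]
  refine hfix _ ?_
  rw [map_sub] at e6
  rw [map_sub, map_sub, e7, ← sub_eq_zero, ← neg_eq_zero, ← sub_eq_zero.2 e6]
  abel

end Vale.Agent.P092WN
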