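import Vale.Agent.P092WN.Asy
import Vale.Agent.P092WN.Gap

/-!
P092 (helper20), block B6: windows of bounded width.
-/

set_option linter.all false

open Filter Topology
open scoped InnerProductSpace

namespace Vale.Agent.P092WN

variable {T : ℝ → ℝ} {G Γ H H₀ : Type} [Group G] [Group Γ] [NormedAddCommGroup H]
  [InnerProductSpace ℂ H] [NormedAddCommGroup H₀] [InnerProductSpace ℂ H₀] {S : Sys G Γ H H₀}
  {len gau gap : Γ → ℝ} {C : ℝ} {z : ℕ → G}

/-- the truncated gauge applied to the two-sided vector -/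
noncomputable def xi (S : Sys G Γ H H₀) (len gau : Γ → ℝ) (N : ℕ) (y : G) : H :=
  S.m (cut len gau N) (S.ζ y)

theorem Gau.xi_le (hg : Gau len gau gap C) (N : ℕ) (y : G) :
    ‖xi S len gau N y‖ ≤ C * ((N : ℝ) ^ 2 + 1) := by
  have hC := hg.one_le
  exact (S.m_bound (hg.cut_le N) _).trans (mul_le_of_le_one_right (by positivity) (S.ζ_norm y))

variable [TopologicalSpace G] [IsTopologicalGroup G]

theorem tr_ev (hT : Scale T) (hg : Gau len gau gap C) (hp : Path z) (ht : S.Tail len T)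
    {Q : Set G} (hQ : IsCompact Q) : ∀ᶠ N : ℕ in atTop, ∀ k ∈ Q,
      ‖xi S len gau (N + 1) (k * z (N + 1)) - xi S len gau N (k * z (N + 1))‖ ≤ 1 / (N : ℝ) ^ 4 := by
  filter_upwards [(tendsto_add_atTop_nat 1).eventually (far_ev hT hg hp ht hQ),
    (tendsto_add_atTop_nat 1).eventually hg.cut_ev, hg.cut_ev,
    (tendsto_natCast_atTop_atTop.comp (tendsto_add_atTop_nat 1)).eventually (hT.big 3 9),
    eventually_ge_atTop 3] with N h1 h2 h3 h4 h5 k hk
  have hN : (3 : ℝ) ≤ N := by exact_mod_cast h5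
  have h6 := (h1 _ le_rfl).2 k hk
  simp only [Function.comp] at h4
  generalize hM : ((N + 1 : ℕ) : ℝ) = M at h2 h4 h6
  have hM' : M = N + 1 := by rw [← hM]; push_cast; rfl
  have h7 := S.m_split (f := fun γ => cut len gau (N + 1) γ - cut len gau N γ) (far len (N + 1))
    (a := 0) (b := 2 * M ^ 3) le_rfl (by rw [hM']; positivity) (fun γ hγ => by
      simp only [far, Set.mem_setOf_eq, not_lt, hM, hM'] at hγ
      simp only [cut, hM, hM']
      rw [if_pos (by nlinarith), if_pos (by nlinarith)]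
      simp) (fun γ => by
      have e1 : (N : ℝ) ^ 3 ≤ M ^ 3 := pow_le_pow_left₀ (by linarith) (by linarith) 3
      linarith [abs_sub (cut len gau (N + 1) γ) (cut len gau N γ), h2 γ, h3 γ])
    (S.ζ (k * z (N + 1)))
  rw [S.m_sub (bd_of h2) (bd_of h3), zero_mul, zero_add] at h7
  have h8 := small_of (N := M) (by linarith) 5 4 (a := -T^[3] M) (by push_cast; linarith)
  have h9 : 1 / M ^ 4 ≤ 1 / (N : ℝ) ^ 4 :=
    one_div_le_one_div_of_le (by positivity) (pow_le_pow_left₀ (by linarith) (by linarith) 4)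
  have h10 : 2 * M ^ 3 * (M + 2) ≤ M ^ 5 := by
    have e1 : 2 * (M + 2) ≤ M ^ 2 := by nlinarith
    have e2 : 0 ≤ M ^ 3 := by rw [hM']; positivity
    nlinarith
  calc _ ≤ _ := h7
    _ ≤ 2 * M ^ 3 * ((M + 2) * Real.exp (-T^[3] M)) :=
        mul_le_mul_of_nonneg_left h6 (by rw [hM']; positivity)
    _ ≤ M ^ 5 * Real.exp (-T^[3] M) := by
        rw [← mul_assoc]; exact mul_le_mul_of_nonneg_right h10 (Real.exp_pos _).le
    _ ≤ _ := h8.trans h9

theorem ap_j (hT : Scale T) (hg : Gau len gau gap C) (hp : Path z) (ht : S.Tail len T)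
    (hw : S.NearWall gap T z) : Ap S.σ z fun N y => S.j y (xi S len gau N y) where
  iso := S.σ_norm
  bd N := ⟨_, fun y => (S.j_le _ _).trans (hg.xi_le N y)⟩
  dif Q hQ := by
    filter_upwards [dif_ev hT hg hp ht hw hQ] with N h1 h hh k hk s hs
    refine le_trans (le_of_eq ?_) ((S.j_le (h * (k * z N) * s) _).trans (h1 h hh k hk s hs))
    congr 1
    simp only [Sys.dif, map_add, map_sub, xi]
    rw [S.j_R, mul_assoc h (k * z N) s, S.j_L, S.j_L, S.j_R]
  tr Q hQ := by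
    filter_upwards [tr_ev hT hg hp ht hQ] with N h1 k hk
    rw [← map_sub]
    exact (S.j_le _ _).trans (h1 k hk)

theorem re_inner_le (S : Sys G Γ H H₀) (y : G) (v : H) : ‖(⟪S.ζ y, v⟫_ℂ).re‖ ≤ ‖v‖ :=
  (Complex.abs_re_le_norm _).trans ((norm_inner_le_norm _ _).trans
    (mul_le_of_le_one_left (norm_nonneg _) (S.ζ_norm y)))

theorem ap_re (hT : Scale T) (hg : Gau len gau gap C) (hp : Path z) (ht : S.Tail len T)
    (hw : S.NearWall gap T z) :
    Ap (1 : G →* (ℝ →L[ℝ] ℝ)) z fun N y => (⟪S.ζ y, xi S len gau N y⟫_ℂ).re where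
  iso _ _ := rfl
  bd N := ⟨_, fun y => (re_inner_le S _ _).trans (hg.xi_le N y)⟩
  dif Q hQ := by
    filter_upwards [dif_ev hT hg hp ht hw hQ] with N h1 h hh k hk s hs
    refine le_trans (le_of_eq ?_) ((re_inner_le S (h * (k * z N) * s) _).trans (h1 h hh k hk s hs))
    congr 1
    simp only [Sys.dif, inner_add_right, inner_sub_right, xi, MonoidHom.one_apply,
      ContinuousLinearMap.one_apply, Complex.add_re, Complex.sub_re]
    rw [S.in_R, mul_assoc h (k * z N) s, S.in_L, S.in_L, S.in_R]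
  tr Q hQ := by
    filter_upwards [tr_ev hT hg hp ht hQ] with N h1 k hk
    rw [← Complex.sub_re, ← inner_sub_right]
    exact (re_inner_le S _ _).trans (h1 k hk)

theorem dif_left (φ : Γ → ℝ) (y s : G) : S.dif φ 1 y s =
    (S.m φ (S.ζ (y * s)) - S.L 1 (S.m φ (S.ζ (y * s)))) -
      S.R y s (S.m φ (S.ζ y) - S.L 1 (S.m φ (S.ζ y))) := by
  have h1 := S.comm 1 _ _ (S.L_lf 1) (S.R_rt s) y (S.m φ (S.ζ y))
  simp only [Sys.dif, h1, one_mul, map_sub]
  abel

theorem dif_right (φ : Γ → ℝ) (h y : G) : S.dif φ h y 1 =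
    (S.m φ (S.ζ (h * y)) - S.R (h * y) 1 (S.m φ (S.ζ (h * y)))) -
      S.L h (S.m φ (S.ζ y) - S.R y 1 (S.m φ (S.ζ y))) := by
  simp only [Sys.dif, mul_one, map_sub]
  abel

theorem junk_step {a b : H →L[ℂ] H} (ha : ∀ v, ‖a v‖ ≤ ‖v‖) (hb : ∀ v, ‖b v‖ ≤ ‖v‖) {x x' y : H}
    {e e' : ℝ} (h1 : ‖x' - x‖ ≤ e) (h2 : ‖(x - a x) - b y‖ ≤ e') : ‖x' - a x'‖ ≤ ‖y‖ + 2 * e + e' := by
  have e1 : x' - a x' = b y + ((x - a x) - b y) + (x' - x) - a (x' - x) := by
    rw [map_sub]; abel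
  rw [e1]
  linarith [norm_sub_le (b y + ((x - a x) - b y) + (x' - x)) (a (x' - x)),
    norm_add_le (b y + ((x - a x) - b y)) (x' - x), norm_add_le (b y) ((x - a x) - b y),
    ha (x' - x), hb y]

theorem three_le {N : ℕ} (h : 1 ≤ N) : 2 * (1 / (N : ℝ) ^ 4) + 1 / (N : ℝ) ^ 4 ≤ 4 / (N : ℝ) ^ 2 ∧
    1 / (N : ℝ) ^ 4 ≤ 1 := by
  have hn : (1 : ℝ) ≤ N := by exact_mod_cast h
  have e1 : 1 / (N : ℝ) ^ 4 ≤ 1 / (N : ℝ) ^ 2 :=
    one_div_le_one_div_of_le (by positivity) (pow_le_pow_right₀ hn (by norm_num))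
  have e2 : 4 / (N : ℝ) ^ 2 = 4 * (1 / (N : ℝ) ^ 2) := by ring
  have e3 : 0 ≤ 1 / (N : ℝ) ^ 2 := by positivity
  exact ⟨by linarith, (div_le_one (by positivity)).2 (one_le_pow₀ hn)⟩

theorem junk_left (hT : Scale T) (hg : Gau len gau gap C) (hp : Path z) (ht : S.Tail len T)
    (hw : S.NearWall gap T z) : ∃ B, ∀ a, St z a → ∀ᶠ N : ℕ in atTop,
      ‖xi S len gau N (a * z N) - S.L 1 (xi S len gau N (a * z N))‖ ≤ B := by
  obtain ⟨Q, hQ, hs⟩ := hp.step
  obtain ⟨B, hB⟩ := bdd_of_step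
    (u := fun N => ‖xi S len gau N (z N) - S.L 1 (xi S len gau N (z N))‖) (by
    filter_upwards [dif_ev hT hg hp ht hw (hQ.insert 1), tr_ev hT hg hp ht (hQ.insert 1),
      eventually_ge_atTop 1] with N h1 h2 h3
    have e1 := h1 1 (by simp) 1 (by simp) _ (Or.inr (hs N))
    have e2 := h2 1 (by simp)
    rw [dif_left, one_mul, mul_inv_cancel_left] at e1
    rw [one_mul] at e2
    have e3 := junk_step (S.L_le 1) (S.R_le _ _) e2 e1
    exact e3.trans (by rw [add_assoc]; exact add_le_add le_rfl (three_le h3).1))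
  refine ⟨B + 1, fun a ⟨Q', hQ', ha⟩ => ?_⟩
  filter_upwards [hB, ha, dif_ev hT hg hp ht hw (hQ'.insert 1), eventually_ge_atTop 1]
    with N h1 h2 h3 h4
  have e1 := h3 1 (by simp) 1 (by simp) _ (Or.inr h2)
  rw [dif_left, one_mul, mul_assoc, mul_inv_cancel_left] at e1
  have e3 := junk_step (S.L_le 1) (S.R_le _ _) (e := 0) (x' := xi S len gau N (a * z N))
    (by simp [xi]) e1
  exact e3.trans (by
    rw [mul_zero, add_zero]; exact add_le_add h1 (three_le h4).2)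

theorem junk_right (hT : Scale T) (hg : Gau len gau gap C) (hp : Path z) (ht : S.Tail len T)
    (hw : S.NearWall gap T z) : ∃ B, ∀ a, ∀ᶠ N : ℕ in atTop,
      ‖xi S len gau N (a * z N) - S.R (a * z N) 1 (xi S len gau N (a * z N))‖ ≤ B := by
  obtain ⟨Q, hQ, hs⟩ := hp.step
  obtain ⟨B, hB⟩ := bdd_of_step
    (u := fun N => ‖xi S len gau N (z N) - S.R (z N) 1 (xi S len gau N (z N))‖) (by
    filter_upwards [dif_ev hT hg hp ht hw (hQ.insert 1), tr_ev hT hg hp ht (hQ.insert 1),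
      eventually_ge_atTop 1] with N h1 h2 h3
    have e1 := h1 _ (Or.inr (hs N)) 1 (by simp) 1 (by simp)
    have e2 := h2 1 (by simp)
    rw [dif_right, one_mul, ← hp.succ] at e1
    rw [one_mul] at e2
    have e3 := junk_step (S.R_le _ 1) (S.L_le _) e2 e1
    exact e3.trans (by rw [add_assoc]; exact add_le_add le_rfl (three_le h3).1))
  refine ⟨B + 1, fun a => ?_⟩
  filter_upwards [hB, dif_ev hT hg hp ht hw (Set.toFinite {1, a}).isCompact, eventually_ge_atTop 1]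
    with N h1 h3 h4
  have e1 := h3 a (by simp) 1 (by simp) 1 (by simp)
  rw [dif_right, one_mul] at e1
  have e3 := junk_step (S.R_le _ 1) (S.L_le _) (e := 0) (x' := xi S len gau N (a * z N))
    (by simp [xi]) e1
  exact e3.trans (by
    rw [mul_zero, add_zero]; exact add_le_add h1 (three_le h4).2)

theorem far_small (hT : Scale T) (hg : Gau len gau gap C) (hp : Path z) (ht : S.Tail len T)
    (a : G) {ε : ℝ} (hε : 0 < ε) :
    ∀ᶠ N : ℕ in atTop, S.mass (far len N) (S.ζ (a * z N)) ≤ ε := by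
  filter_upwards [far_ev hT hg hp ht (isCompact_singleton (x := a)),
    tendsto_natCast_atTop_atTop.eventually (hT.big 3 3), eventually_ge_atTop 2,
    (tendsto_inv_pow one_ne_zero).eventually (ge_mem_nhds hε)] with N h1 h2 h3 h4
  have hN : (2 : ℝ) ≤ N := by exact_mod_cast h3
  have h5 := small_of (N := N) (by linarith) 2 1 (a := -T^[3] N) (by push_cast; linarith)
  refine ((h1 N le_rfl).2 a rfl).trans (le_trans ?_ (h5.trans h4))
  exact mul_le_mul_of_nonneg_right (by nlinarith) (Real.exp_pos _).le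

/-- the second moment form -/
theorem win_l2 [CompleteSpace H₀] (hT : Scale T) (hg : Gau len gau gap C) (hp : Path z) {b : G}
    (hb : Cen S.σ z b) (ht : S.Tail len T) (hw : S.NearWall gap T z) :
    ∃ χ : G → ℝ, (∀ g p, St z p → χ (g * p) = χ g + χ p) ∧
      (∀ Q : Set G, IsCompact Q → ∃ B, ∀ g ∈ Q, |χ g| ≤ B) ∧
      ∃ B : ℝ, ∀ a, St z a → a * b = b * a → ∀ᶠ N in atTop,
        ‖xi S len gau N (a * z N) - (χ (a * z N) : ℂ) • S.ζ (a * z N)‖ ≤ B := by
  have a0 := ap_j hT hg hp ht hw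
  have a1 := ap_re hT hg hp ht hw
  obtain ⟨c₀, h0⟩ := a0.exists_coc hp
  obtain ⟨c₁, h1⟩ := a1.exists_coc hp
  obtain ⟨η, hη⟩ := h0.cobound a0 hp hb
  obtain ⟨B₀, hB₀⟩ := h0.tight a0 hp
  obtain ⟨B₁, hB₁⟩ := h1.tight a1 hp
  obtain ⟨B₂, hB₂⟩ := junk_left hT hg hp ht hw
  obtain ⟨B₃, hB₃⟩ := junk_right hT hg hp ht hw
  refine ⟨fun g => c₁ g 1, fun g p hp' => ?_, fun Q hQ => ?_,
    B₂ + B₃ + (B₀ + 2 * ‖η‖) + B₁, fun a ha hab => ?_⟩
  · have e := h1.coc g p 1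
    rw [mul_one, ← one_mul p, h1.inv _ _ _ hp', one_mul] at e
    exact e
  · obtain ⟨B, hB⟩ := h1.bdd a1 (hQ.insert 1)
    exact ⟨B, fun g hg => hB g (Or.inr hg) 1 (Or.inl rfl)⟩
  filter_upwards [hB₀ a, hB₁ a, hB₂ a ha, hB₃ a] with N e0 e1 e2 e3
  rw [hη _ (ha.mul (hp.st N)) (by rw [mul_assoc, ← hb.1, ← mul_assoc, hab, mul_assoc])] at e0
  generalize a * z N = w at *
  have hr : ⟪S.ζ w, xi S len gau N w⟫_ℂ = ((⟪S.ζ w, xi S len gau N w⟫_ℂ).re : ℂ) :=
    Complex.ext rfl (S.m_real _ (bd_of (hg.cut_le N)) _)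
  have e4 := S.j_ge w (xi S len gau N w)
  generalize xi S len gau N w = v at *
  have e5 : ‖S.j w v‖ ≤ B₀ + 2 * ‖η‖ := by
    have := norm_le_norm_add_norm_sub' (S.j w v) (η - S.σ w η)
    have := norm_sub_le η (S.σ w η)
    rw [S.σ_norm] at this
    linarith
  have e6 : ‖(((⟪S.ζ w, v⟫_ℂ).re - c₁ w 1 : ℝ) : ℂ) • S.ζ w‖ ≤ B₁ := by
    rw [norm_smul, Complex.norm_real]
    exact (mul_le_of_le_one_right (norm_nonneg _) (S.ζ_norm w)).trans e1
  have e7 := (S.L_le 1 _).trans e3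
  have e : v - (c₁ w 1 : ℂ) • S.ζ w = (v - S.L 1 v) + S.L 1 (v - S.R w 1 v) +
      (S.L 1 (S.R w 1 v) - ⟪S.ζ w, v⟫_ℂ • S.ζ w) +
      (((⟪S.ζ w, v⟫_ℂ).re - c₁ w 1 : ℝ) : ℂ) • S.ζ w := by
    rw [Complex.ofReal_sub, ← hr, sub_smul, map_sub]; abel
  rw [e]
  exact (norm_add_le _ _).trans (add_le_add ((norm_add_le _ _).trans (add_le_add
    ((norm_add_le _ _).trans (add_le_add e2 e7)) (e4.trans e5))) e6)

/-- **Windows of bounded width.** -/
theorem win [CompleteSpace H₀] (hT : Scale T) (hg : Gau len gau gap C) (hp : Path z) {b : G}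
    (hb : Cen S.σ z b) (ht : S.Tail len T) (hw : S.NearWall gap T z) : Win S gau z b := by
  obtain ⟨χ, h1, h2, B, hB⟩ := win_l2 hT hg hp hb ht hw
  refine ⟨χ, h1, h2, B, fun a ha hab r hr ε hε => ?_⟩
  filter_upwards [hB a ha hab, far_small hT hg hp ht a hε] with N e1 e2
  have e3 := S.mass_cheb ((bd_of (hg.cut_le N)).sub (bd_const (χ (a * z N)))) hr (S.ζ (a * z N))
  rw [S.m_sub (bd_of (hg.cut_le N)) (bd_const _), S.m_const] at e3
  refine (S.mass_mono (E' := {γ | r < |cut len gau N γ - χ (a * z N)|} ∪ far len N)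
    (fun γ hγ => ?_) _).trans ((S.mass_union _ _ _).trans
      (add_le_add (e3.trans (div_le_div_of_nonneg_right e1 hr.le)) e2))
  by_cases h3 : len γ ≤ (N : ℝ) ^ 2
  · left
    simpa [cut, h3] using hγ
  · right
    have : 0 ≤ (N : ℝ) ^ 2 := by positivity
    simp only [far, Set.mem_setOf_eq]
    linarith [not_le.1 h3]

end Vale.Agent.P092WN
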