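import Mathlib.Analysis.InnerProductSpace.Basic
import Mathlib.Analysis.SpecialFunctions.Log.Basic
import Mathlib.Topology.Algebra.Group.Basic

/-!
P092 (helper20), block B6 (windows): the abstract two-sided system.

`H` is `L²` of the amplified finite algebra, graded by the target lattice `Γ`; `ζ g` is the vector
of `ω u_g ω*`; `L h`, `R g s` are the true left and right multiplications; `H₀` is the trace zero
part of `L²(M)`.
-/

set_option linter.all false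

open Filter Topology
open scoped InnerProductSpace

namespace Vale.Agent.P092WN

/-- A scale function, such as `exp ((log x) ^ a)` with `0 < a < 1`. -/
structure Scale (T : ℝ → ℝ) : Prop where
  mono : Monotone T
  small : ∀ C : ℝ, ∀ᶠ x in atTop, C * T x ^ 2 ≤ x
  big : ∀ (k : ℕ) (C : ℝ), ∀ᶠ x in atTop, C * Real.log x ≤ T^[k] x

/-- bounded real functions -/
def Bd {Γ : Type} (f : Γ → ℝ) : Prop := ∃ c : ℝ, ∀ γ, |f γ| ≤ c

/-- The two-sided graded system. -/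
structure Sys (G Γ H H₀ : Type) [Group G] [Group Γ] [NormedAddCommGroup H] [InnerProductSpace ℂ H]
    [NormedAddCommGroup H₀] [InnerProductSpace ℂ H₀] where
  /-- the position calculus -/
  m : (Γ → ℝ) → H →L[ℂ] H
  /-- the two-sided vectors -/
  ζ : G → H
  /-- the true left multiplications -/
  L : G → H →L[ℂ] H
  /-- the true right multiplications (on vectors of degree `g`) -/
  R : G → G → H →L[ℂ] H
  /-- left multiplications of degree `h` -/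
  Lf : G → (H →L[ℂ] H) → Prop
  /-- right multiplications -/
  Rt : (G → H →L[ℂ] H) → Prop
  /-- `v` is a bounded element of norm at most `A` -/
  Am : H → ℝ → Prop
  /-- the representation on the trace zero part -/
  σ : G →* (H₀ →L[ℂ] H₀)
  /-- compression of a vector of degree `g` to the trace zero part of `L²(M)` -/
  j : G → H →L[ℂ] H₀
  m_add : ∀ f g, Bd f → Bd g → ∀ v, m (fun γ => f γ + g γ) v = m f v + m g v
  m_smul : ∀ (c : ℝ) f, Bd f → ∀ v, m (fun γ => c * f γ) v = (c : ℂ) • m f v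
  m_mul : ∀ f g, Bd f → Bd g → ∀ v, m (fun γ => f γ * g γ) v = m f (m g v)
  m_one : ∀ v, m (fun _ => 1) v = v
  m_le : ∀ f g, Bd g → (∀ γ, |f γ| ≤ |g γ|) → ∀ v, ‖m f v‖ ≤ ‖m g v‖
  m_real : ∀ f, Bd f → ∀ v, (⟪v, m f v⟫_ℂ).im = 0
  ζ_norm : ∀ g, ‖ζ g‖ ≤ 1
  L_ζ : ∀ h g, L h (ζ g) = ζ (h * g)
  R_ζ : ∀ g s, R g s (ζ g) = ζ (g * s)
  L_le : ∀ h v, ‖L h v‖ ≤ ‖v‖
  R_le : ∀ g s v, ‖R g s v‖ ≤ ‖v‖
  L_lf : ∀ h, Lf h (L h)
  R_rt : ∀ s, Rt fun g => R g s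
  comm : ∀ h a b, Lf h a → Rt b → ∀ g v, a (b g v) = b (h * g) (a v)
  am_zero : Am 0 0
  am_add : ∀ v w A B, Am v A → Am w B → Am (v + w) (A + B)
  am_smul : ∀ (c : ℝ) v A, Am v A → Am ((c : ℂ) • v) (|c| * A)
  am_mono : ∀ v A B, Am v A → A ≤ B → Am v B
  am_ζ : ∀ g, Am (ζ g) 1
  σ_norm : ∀ g v, ‖σ g v‖ = ‖v‖
  j_le : ∀ g v, ‖j g v‖ ≤ ‖v‖
  j_L : ∀ h g v, j (h * g) (L h v) = σ h (j g v)
  j_R : ∀ g s v, j (g * s) (R g s v) = j g v
  in_L : ∀ h g v, ⟪ζ (h * g), L h v⟫_ℂ = ⟪ζ g, v⟫_ℂ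
  in_R : ∀ g s v, ⟪ζ (g * s), R g s v⟫_ℂ = ⟪ζ g, v⟫_ℂ
  j_ge : ∀ g v, ‖L 1 (R g 1 v) - ⟪ζ g, v⟫_ℂ • ζ g‖ ≤ ‖j g v‖

namespace Sys

variable {G Γ H H₀ : Type} [Group G] [Group Γ] [NormedAddCommGroup H] [InnerProductSpace ℂ H]
  [NormedAddCommGroup H₀] [InnerProductSpace ℂ H₀] (S : Sys G Γ H H₀)

/-- contractions for both norms -/
def Ct (a : H →L[ℂ] H) : Prop := (∀ v, ‖a v‖ ≤ ‖v‖) ∧ ∀ v A, S.Am v A → S.Am (a v) A

/-- the mass of a vector on a set of positions -/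
noncomputable def mass (E : Set Γ) (v : H) : ℝ := ‖S.m (E.indicator 1) v‖

/-- A banded approximant of the left multiplication `L h`, with its Fourier components. -/
structure LA (len : Γ → ℝ) (h : G) (J ε : ℝ) where
  /-- the support -/
  F : Finset Γ
  /-- the components -/
  l : Γ → H →L[ℂ] H
  len_le : ∀ s ∈ F, len s ≤ J
  lf : ∀ s ∈ F, S.Lf h (l s)
  ct : ∀ s ∈ F, S.Ct (l s)
  hom : ∀ s ∈ F, ∀ f, Bd f → ∀ v, S.m f (l s v) = l s (S.m (fun γ => f (s * γ)) v)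
  ct_sum : S.Ct (∑ s ∈ F, l s)
  err : ∀ v A, S.Am v A → ‖(∑ s ∈ F, l s) v - S.L h v‖ ≤ ε * A

/-- A banded approximant of the right multiplication `R · s`, with its Fourier components. -/
structure RA (len : Γ → ℝ) (s : G) (J ε : ℝ) where
  /-- the support -/
  F : Finset Γ
  /-- the components -/
  r : Γ → G → H →L[ℂ] H
  len_le : ∀ t ∈ F, len t ≤ J
  rt : ∀ t ∈ F, S.Rt (r t)
  ct : ∀ t ∈ F, ∀ g, S.Ct (r t g)
  hom : ∀ t ∈ F, ∀ g f, Bd f → ∀ v, S.m f (r t g v) = r t g (S.m (fun γ => f (γ * t)) v)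
  ct_sum : ∀ g, S.Ct (∑ t ∈ F, r t g)
  err : ∀ g v A, S.Am v A → ‖(∑ t ∈ F, r t g) v - S.R g s v‖ ≤ ε * A

/-- A banded approximant of the vector `ζ 1`. -/
structure VA (len : Γ → ℝ) (J ε : ℝ) where
  /-- the support -/
  F : Finset Γ
  /-- the components -/
  v : Γ → H
  len_le : ∀ s ∈ F, len s ≤ J
  am : ∀ s ∈ F, S.Am (v s) 1
  hom : ∀ s ∈ F, ∀ f, Bd f → S.m f (v s) = (f s : ℂ) • v s
  err : ‖∑ s ∈ F, v s - S.ζ 1‖ ≤ ε

/-- **Strong tails**, two-sided (junk free), uniform on compact sets. -/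
def Tail [TopologicalSpace G] (len : Γ → ℝ) (T : ℝ → ℝ) : Prop :=
  (∀ᶠ J in atTop, Nonempty (S.VA len J (Real.exp (-T J)))) ∧
    ∀ Q : Set G, IsCompact Q → ∀ᶠ J in atTop, ∀ h ∈ Q,
      Nonempty (S.LA len h J (Real.exp (-T J))) ∧ Nonempty (S.RA len h J (Real.exp (-T J)))

/-- **Near wall rate** along the path `z`. -/
def NearWall (gap : Γ → ℝ) (T : ℝ → ℝ) (z : ℕ → G) : Prop :=
  ∀ᶠ n : ℕ in atTop, S.mass {γ | gap γ ≤ T n} (S.ζ (z n)) ≤ Real.exp (-T n)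

end Sys

/-- The gauge on the target lattice. -/
structure Gau {Γ : Type} [Group Γ] (len gau gap : Γ → ℝ) (C : ℝ) : Prop where
  one_le : 1 ≤ C
  len_nonneg : ∀ γ, 0 ≤ len γ
  len_mul : ∀ s t, len (s * t) ≤ len s + len t
  card : ∀ J, 1 ≤ J → ∀ F : Finset Γ, (∀ s ∈ F, len s ≤ J) → (F.card : ℝ) ≤ Real.exp (C * J)
  bdd : ∀ γ, |gau γ| ≤ C * (len γ + 1)
  gap_le : ∀ J, 1 ≤ J → ∀ s γ, len s ≤ J → gap γ ≤ gap (s * γ) + C * J
  dd : ∀ J, 1 ≤ J → ∀ s t γ, len s ≤ J → len t ≤ J → C * J ≤ gap γ →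
    |gau (s * γ * t) - gau (s * γ) - gau (γ * t) + gau γ| ≤ Real.exp (C * J - gap γ)

/-- the elements which stay bounded under conjugation along the path (the parabolic subgroup) -/
def St {G : Type} [Group G] [TopologicalSpace G] (z : ℕ → G) (p : G) : Prop :=
  ∃ Q : Set G, IsCompact Q ∧ ∀ᶠ n in atTop, (z n)⁻¹ * p * z n ∈ Q

/-- The path in the source group: commuting, bounded steps, Iwasawa, exponential covering numbers. -/
structure Path {G : Type} [Group G] [TopologicalSpace G] (z : ℕ → G) : Prop where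
  zero : z 0 = 1
  comm : ∀ n m, z n * z m = z m * z n
  step : ∃ Q : Set G, IsCompact Q ∧ ∀ n, (z n)⁻¹ * z (n + 1) ∈ Q
  iwa : ∃ K : Set G, IsCompact K ∧ (∀ g, ∃ k ∈ K, St z (k⁻¹ * g)) ∧
    ∃ Q : Set G, IsCompact Q ∧ ∃ D : ℝ, ∀ n : ℕ, ∃ E : Finset G, (∀ e ∈ E, e ∈ K) ∧
      (E.card : ℝ) ≤ Real.exp (D * (n + 1)) ∧ ∀ k ∈ K, ∃ e ∈ E, (z n)⁻¹ * (e⁻¹ * k) * z n ∈ Q

/-- An element `b` without fixed vectors, centralised by the path and by a finite family with a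
gap in the representation with the squared coefficients. -/
def Cen {G H₀ : Type} [Group G] [NormedAddCommGroup H₀] [InnerProductSpace ℂ H₀]
    (σ : G →* (H₀ →L[ℂ] H₀)) (z : ℕ → G) (b : G) : Prop :=
  (∀ n, b * z n = z n * b) ∧ (∀ v, σ b v = v → v = 0) ∧
    ∃ (p : ℕ) (s : Fin p → G), 0 < p ∧ (∀ i, b * s i = s i * b) ∧
      ∃ (E : Type) (_ : NormedAddCommGroup E) (_ : InnerProductSpace ℂ E) (ρ : G →* (E →L[ℂ] E))
        (sq : H₀ → E), (∀ x y, ⟪sq x, sq y⟫_ℂ = ((‖⟪x, y⟫_ℂ‖ ^ 2 : ℝ) : ℂ)) ∧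
        (∀ g x, ρ g (sq x) = sq (σ g x)) ∧
        ∃ θ : ℝ, θ < 1 ∧ ∀ v, ‖((p : ℂ))⁻¹ • ∑ i, ρ (s i) v‖ ≤ θ * ‖v‖

/-- **Windows**: the gauge of `ζ (a z_N)` is `χ (a z_N) + O(1)`, uniformly in `a`. -/
def Win {G Γ H H₀ : Type} [Group G] [TopologicalSpace G] [Group Γ] [NormedAddCommGroup H]
    [InnerProductSpace ℂ H] [NormedAddCommGroup H₀] [InnerProductSpace ℂ H₀] (S : Sys G Γ H H₀)
    (gau : Γ → ℝ) (z : ℕ → G) (b : G) : Prop :=
  ∃ χ : G → ℝ, (∀ g p, St z p → χ (g * p) = χ g + χ p) ∧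
    (∀ Q : Set G, IsCompact Q → ∃ B, ∀ g ∈ Q, |χ g| ≤ B) ∧
    ∃ C : ℝ, ∀ a, St z a → a * b = b * a → ∀ r : ℝ, 0 < r → ∀ ε : ℝ, 0 < ε →
      ∀ᶠ N in atTop, S.mass {γ | r < |gau γ - χ (a * z N)|} (S.ζ (a * z N)) ≤ C / r + ε

end Vale.Agent.P092WN
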