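import Vale.Agent.P092WN.Defs

/-!
P092 (helper20), block B6: the calculus of a two-sided system.
-/

set_option linter.all false

open Filter Topology
open scoped InnerProductSpace

namespace Vale.Agent.P092WN

theorem bd_const {Γ : Type} (c : ℝ) : Bd fun _ : Γ => c := ⟨|c|, fun _ => le_rfl⟩

theorem bd_of {Γ : Type} {f : Γ → ℝ} {c : ℝ} (h : ∀ γ, |f γ| ≤ c) : Bd f := ⟨c, h⟩

theorem abs_ind {Γ : Type} (E : Set Γ) (γ : Γ) : |E.indicator (1 : Γ → ℝ) γ| ≤ 1 := by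
  by_cases h : γ ∈ E <;> simp [h]

theorem bd_ind {Γ : Type} (E : Set Γ) : Bd (E.indicator (1 : Γ → ℝ)) := ⟨1, abs_ind E⟩

theorem Bd.comp {Γ : Type} {f : Γ → ℝ} (h : Bd f) (u : Γ → Γ) : Bd fun γ => f (u γ) :=
  let ⟨c, hc⟩ := h
  ⟨c, fun γ => hc _⟩

theorem Bd.add {Γ : Type} {f g : Γ → ℝ} (h : Bd f) (h' : Bd g) : Bd fun γ => f γ + g γ :=
  let ⟨c, hc⟩ := h
  let ⟨d, hd⟩ := h'
  ⟨c + d, fun γ => (abs_add_le _ _).trans (add_le_add (hc γ) (hd γ))⟩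

theorem Bd.smul {Γ : Type} {f : Γ → ℝ} (h : Bd f) (a : ℝ) : Bd fun γ => a * f γ :=
  let ⟨c, hc⟩ := h
  ⟨|a| * c, fun γ => by rw [abs_mul]; exact mul_le_mul_of_nonneg_left (hc γ) (abs_nonneg a)⟩

theorem Bd.sub {Γ : Type} {f g : Γ → ℝ} (h : Bd f) (h' : Bd g) : Bd fun γ => f γ - g γ :=
  let ⟨c, hc⟩ := h
  let ⟨d, hd⟩ := h'
  ⟨c + d, fun γ => (abs_sub _ _).trans (add_le_add (hc γ) (hd γ))⟩

namespace Sys

variable {G Γ H H₀ : Type} [Group G] [Group Γ] [NormedAddCommGroup H] [InnerProductSpace ℂ H]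
  [NormedAddCommGroup H₀] [InnerProductSpace ℂ H₀] (S : Sys G Γ H H₀)

theorem m_const (c : ℝ) (v : H) : S.m (fun _ => c) v = (c : ℂ) • v := by
  have h := S.m_smul c (fun _ => 1) (bd_const 1) v
  simpa [S.m_one] using h

theorem m_zero (v : H) : S.m (fun _ => 0) v = 0 := by
  simpa using S.m_const 0 v

theorem m_sub {f g : Γ → ℝ} (hf : Bd f) (hg : Bd g) (v : H) :
    S.m (fun γ => f γ - g γ) v = S.m f v - S.m g v := by
  have h := S.m_add f (fun γ => -1 * g γ) hf (hg.smul _) v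
  rw [S.m_smul (-1) g hg] at h
  simpa [sub_eq_add_neg] using h

theorem m_bound {f : Γ → ℝ} {c : ℝ} (h : ∀ γ, |f γ| ≤ c) (v : H) : ‖S.m f v‖ ≤ c * ‖v‖ := by
  have hc : 0 ≤ c := (abs_nonneg _).trans (h 1)
  have h1 := S.m_le f (fun _ => c) (bd_const c) (fun γ => (h γ).trans (le_abs_self c)) v
  rwa [S.m_const, norm_smul, Complex.norm_real, Real.norm_of_nonneg hc] at h1

theorem mass_nonneg (E : Set Γ) (v : H) : 0 ≤ S.mass E v := norm_nonneg _

theorem mass_le (E : Set Γ) (v : H) : S.mass E v ≤ ‖v‖ := by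
  simpa [mass] using S.m_bound (abs_ind E) v

theorem mass_mono {E E' : Set Γ} (h : E ⊆ E') (v : H) : S.mass E v ≤ S.mass E' v := by
  refine S.m_le _ _ (bd_ind E') (fun γ => ?_) v
  by_cases h1 : γ ∈ E
  · simp [h1, h h1]
  · simp [h1]

theorem mass_near (E : Set Γ) (v w : H) : S.mass E v ≤ S.mass E w + ‖v - w‖ := by
  have h : S.m (E.indicator 1) v = S.m (E.indicator 1) w + S.m (E.indicator 1) (v - w) := by
    rw [← map_add]; simp
  calc S.mass E v = ‖S.m (E.indicator 1) w + S.m (E.indicator 1) (v - w)‖ := by rw [← h]; rfl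
    _ ≤ S.mass E w + S.mass E (v - w) := norm_add_le _ _
    _ ≤ _ := add_le_add le_rfl (S.mass_le _ _)

theorem m_split {f : Γ → ℝ} {a b : ℝ} (E : Set Γ) (ha : 0 ≤ a) (hb : 0 ≤ b)
    (h1 : ∀ γ, γ ∉ E → |f γ| ≤ a) (h2 : ∀ γ, |f γ| ≤ b) (v : H) :
    ‖S.m f v‖ ≤ a * ‖v‖ + b * S.mass E v := by
  have h := S.m_le f (fun γ => a + b * E.indicator 1 γ) ((bd_const a).add ((bd_ind E).smul b))
    (fun γ => by
      refine le_trans ?_ (le_abs_self _)
      by_cases h3 : γ ∈ E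
      · have := h2 γ
        simp [h3]; linarith
      · simpa [h3] using h1 γ h3) v
  rw [S.m_add _ _ (bd_const a) ((bd_ind E).smul b), S.m_const, S.m_smul _ _ (bd_ind E)] at h
  refine h.trans ((norm_add_le _ _).trans ?_)
  rw [norm_smul, norm_smul, Complex.norm_real, Complex.norm_real, Real.norm_of_nonneg ha,
    Real.norm_of_nonneg hb]
  exact le_rfl

theorem mass_union (E E' : Set Γ) (v : H) : S.mass (E ∪ E') v ≤ S.mass E v + S.mass E' v := by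
  have h := S.m_le ((E ∪ E').indicator 1) (fun γ => E.indicator 1 γ + E'.indicator 1 γ)
    ((bd_ind E).add (bd_ind E')) (fun γ => by
      refine le_trans ?_ (le_abs_self _)
      by_cases h1 : γ ∈ E <;> by_cases h2 : γ ∈ E' <;> simp [h1, h2]) v
  rw [S.m_add _ _ (bd_ind E) (bd_ind E')] at h
  exact h.trans (norm_add_le _ _)

/-- Chebyshev -/
theorem mass_cheb {f : Γ → ℝ} (hf : Bd f) {r : ℝ} (hr : 0 < r) (v : H) :
    S.mass {γ | r < |f γ|} v ≤ ‖S.m f v‖ / r := by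
  have h := S.m_le (fun γ => r * Set.indicator {γ | r < |f γ|} 1 γ) f hf (fun γ => by
      by_cases h1 : γ ∈ {γ | r < |f γ|}
      · simp only [Set.indicator_of_mem h1, Pi.one_apply, mul_one, abs_of_pos hr]
        exact le_of_lt h1
      · simp [Set.indicator_of_notMem h1]) v
  rw [S.m_smul _ _ (bd_ind _), norm_smul, Complex.norm_real, Real.norm_of_nonneg hr.le] at h
  rw [le_div_iff₀ hr, mul_comm]
  exact h

theorem am_sum {ι : Type} (F : Finset ι) {v : ι → H} {A : ℝ} (h : ∀ i ∈ F, S.Am (v i) A) :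
    S.Am (∑ i ∈ F, v i) (F.card * A) := by
  classical
  induction F using Finset.induction_on with
  | empty => simpa using S.am_zero
  | insert i F hi ih =>
    rw [Finset.sum_insert hi, Finset.card_insert_of_notMem hi]
    have h1 := S.am_add _ _ _ _ (h i (by simp)) (ih fun j hj => h j (by simp [hj]))
    refine S.am_mono _ _ _ h1 (le_of_eq ?_)
    push_cast; ring

theorem am_sub {v w : H} {A B : ℝ} (h : S.Am v A) (h' : S.Am w B) : S.Am (v - w) (A + B) := by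
  have h1 := S.am_add _ _ _ _ h (S.am_smul (-1) _ _ h')
  simpa [sub_eq_add_neg] using h1

/-- `v` is within `ρ` of a bounded element of norm at most `A` -/
def Na (v : H) (A ρ : ℝ) : Prop := ∃ w, S.Am w A ∧ ‖v - w‖ ≤ ρ

/-- every multiplier of `v` is a bounded element -/
def Sch (v : H) (B : ℝ) : Prop := ∀ (f : Γ → ℝ) (c : ℝ), (∀ γ, |f γ| ≤ c) → S.Am (S.m f v) (c * B)

variable {S}

theorem Na.near {v w : H} {A ρ e : ℝ} (h : S.Na w A ρ) (h' : ‖v - w‖ ≤ e) : S.Na v A (ρ + e) := by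
  obtain ⟨u, hu, h1⟩ := h
  refine ⟨u, hu, ?_⟩
  calc ‖v - u‖ = ‖(w - u) + (v - w)‖ := by congr 1; abel
    _ ≤ _ := (norm_add_le _ _).trans (add_le_add h1 h')

theorem Na.add {v w : H} {A B ρ e : ℝ} (h : S.Na v A ρ) (h' : S.Na w B e) :
    S.Na (v + w) (A + B) (ρ + e) := by
  obtain ⟨u, hu, h1⟩ := h
  obtain ⟨u', hu', h2⟩ := h'
  refine ⟨u + u', S.am_add _ _ _ _ hu hu', ?_⟩
  calc ‖v + w - (u + u')‖ = ‖(v - u) + (w - u')‖ := by congr 1; abel
    _ ≤ _ := (norm_add_le _ _).trans (add_le_add h1 h2)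

theorem Na.mono {v : H} {A B ρ e : ℝ} (h : S.Na v A ρ) (h1 : A ≤ B) (h2 : ρ ≤ e) : S.Na v B e :=
  let ⟨u, hu, h3⟩ := h
  ⟨u, S.am_mono _ _ _ hu h1, h3.trans h2⟩

theorem Na.ct {v : H} {A ρ : ℝ} (h : S.Na v A ρ) {a : H →L[ℂ] H} (ha : S.Ct a) :
    S.Na (a v) A ρ := by
  obtain ⟨u, hu, h1⟩ := h
  exact ⟨a u, ha.2 _ _ hu, by rw [← map_sub]; exact (ha.1 _).trans h1⟩

theorem err_na {a b : H →L[ℂ] H} (ha : ∀ v, ‖a v‖ ≤ ‖v‖) (hb : ∀ v, ‖b v‖ ≤ ‖v‖) {ε : ℝ}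
    (h : ∀ v A, S.Am v A → ‖a v - b v‖ ≤ ε * A) {v : H} {A ρ : ℝ} (hv : S.Na v A ρ) :
    ‖a v - b v‖ ≤ ε * A + 2 * ρ := by
  obtain ⟨u, hu, h1⟩ := hv
  have e : a v - b v = (a u - b u) + a (v - u) - b (v - u) := by simp only [map_sub]; abel
  rw [e]
  have h2 := norm_sub_le (a u - b u + a (v - u)) (b (v - u))
  have h3 := norm_add_le (a u - b u) (a (v - u))
  linarith [h u A hu, ha (v - u), hb (v - u)]

theorem shift {ι : Type} (F : Finset ι) (l : ι → H →L[ℂ] H) (u : ι → Γ → Γ)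
    (hom : ∀ s ∈ F, ∀ f, Bd f → ∀ v, S.m f (l s v) = l s (S.m (fun γ => f (u s γ)) v))
    (ct : ∀ v, ‖(∑ s ∈ F, l s) v‖ ≤ ‖v‖) {E E' : Set Γ}
    (h : ∀ s ∈ F, ∀ γ, u s γ ∈ E → γ ∈ E') (v : H) :
    S.mass E ((∑ s ∈ F, l s) v) ≤ S.mass E' v := by
  have h1 : v = S.m (E'.indicator 1) v + S.m (E'ᶜ.indicator 1) v := by
    rw [← S.m_add _ _ (bd_ind _) (bd_ind _)]
    conv_lhs => rw [← S.m_one v]
    congr 2
    funext γ
    by_cases h2 : γ ∈ E' <;> simp [h2]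
  have h2 : S.m (E.indicator 1) ((∑ s ∈ F, l s) (S.m (E'ᶜ.indicator 1) v)) = 0 := by
    rw [ContinuousLinearMap.sum_apply, map_sum]
    refine Finset.sum_eq_zero fun s hs => ?_
    rw [hom s hs _ (bd_ind E), ← S.m_mul _ _ ((bd_ind E).comp _) (bd_ind _)]
    have h3 : (fun γ => E.indicator (1 : Γ → ℝ) (u s γ) * E'ᶜ.indicator 1 γ) = fun _ => 0 := by
      funext γ
      by_cases h4 : u s γ ∈ E
      · simp [h s hs γ h4]
      · simp [h4]
    rw [h3, S.m_zero, map_zero]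
  unfold mass
  conv_lhs => rw [h1, map_add, map_add, h2, add_zero]
  exact (S.mass_le E _).trans (ct _)

theorem sch_sum {ι : Type} (F : Finset ι) (l : ι → H →L[ℂ] H) (u : ι → Γ → Γ)
    (hom : ∀ s ∈ F, ∀ f, Bd f → ∀ v, S.m f (l s v) = l s (S.m (fun γ => f (u s γ)) v))
    (ct : ∀ s ∈ F, S.Ct (l s)) {B B' : ℝ} (hB : (F.card : ℝ) ≤ B) (hB' : 0 ≤ B') {v : H}
    (hv : S.Sch v B') : S.Sch ((∑ s ∈ F, l s) v) (B * B') := by
  intro f c hf
  have hc : 0 ≤ c := (abs_nonneg _).trans (hf 1)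
  rw [ContinuousLinearMap.sum_apply, map_sum]
  have h1 := S.am_sum F (v := fun s => S.m f (l s v)) (A := c * B') fun s hs => by
    rw [hom s hs f (bd_of hf)]
    exact (ct s hs).2 _ _ (hv _ c fun γ => hf _)
  refine S.am_mono _ _ _ h1 ?_
  calc (F.card : ℝ) * (c * B') ≤ B * (c * B') := mul_le_mul_of_nonneg_right hB (mul_nonneg hc hB')
    _ = c * (B * B') := by ring

variable {len : Γ → ℝ} {h s : G} {J ε : ℝ}

/-- the approximant -/
noncomputable def LA.op (a : S.LA len h J ε) : H →L[ℂ] H := ∑ s ∈ a.F, a.l s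

/-- the approximant -/
noncomputable def RA.op (b : S.RA len s J ε) (g : G) : H →L[ℂ] H := ∑ t ∈ b.F, b.r t g

theorem LA.op_ct (a : S.LA len h J ε) : S.Ct a.op := a.ct_sum

theorem RA.op_ct (b : S.RA len s J ε) (g : G) : S.Ct (b.op g) := b.ct_sum g

theorem LA.zeta (a : S.LA len h J ε) (g : G) : ‖S.ζ (h * g) - a.op (S.ζ g)‖ ≤ ε := by
  have h1 := a.err _ _ (S.am_ζ g)
  rwa [S.L_ζ, mul_one, norm_sub_rev] at h1

theorem RA.zeta (b : S.RA len s J ε) (g : G) : ‖S.ζ (g * s) - b.op g (S.ζ g)‖ ≤ ε := by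
  have h1 := b.err g _ _ (S.am_ζ g)
  rwa [S.R_ζ, mul_one, norm_sub_rev] at h1

theorem LA.err_na (a : S.LA len h J ε) {v : H} {A ρ : ℝ} (hv : S.Na v A ρ) :
    ‖a.op v - S.L h v‖ ≤ ε * A + 2 * ρ :=
  Sys.err_na a.op_ct.1 (S.L_le h) a.err hv

theorem RA.err_na (b : S.RA len s J ε) (g : G) {v : H} {A ρ : ℝ} (hv : S.Na v A ρ) :
    ‖b.op g v - S.R g s v‖ ≤ ε * A + 2 * ρ :=
  Sys.err_na (b.op_ct g).1 (S.R_le g s) (b.err g) hv

theorem LA.mass (a : S.LA len h J ε) {E E' : Set Γ}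
    (hE : ∀ s, len s ≤ J → ∀ γ, s * γ ∈ E → γ ∈ E') (g : G) :
    S.mass E (S.ζ (h * g)) ≤ S.mass E' (S.ζ g) + ε :=
  (S.mass_near E _ (a.op (S.ζ g))).trans (add_le_add
    (shift a.F a.l (fun s γ => s * γ) a.hom a.op_ct.1 (fun s hs => hE s (a.len_le s hs)) _)
    (a.zeta g))

theorem RA.mass (b : S.RA len s J ε) {E E' : Set Γ}
    (hE : ∀ t, len t ≤ J → ∀ γ, γ * t ∈ E → γ ∈ E') (g : G) :
    S.mass E (S.ζ (g * s)) ≤ S.mass E' (S.ζ g) + ε :=
  (S.mass_near E _ (b.op g (S.ζ g))).trans (add_le_add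
    (shift b.F (fun t => b.r t g) (fun t γ => γ * t) (fun t ht => b.hom t ht g) (b.op_ct g).1
      (fun t ht => hE t (b.len_le t ht)) _) (b.zeta g))

theorem LA.sch (a : S.LA len h J ε) {B B' : ℝ} (hB : (a.F.card : ℝ) ≤ B) (hB' : 0 ≤ B') {v : H}
    (hv : S.Sch v B') : S.Sch (a.op v) (B * B') :=
  sch_sum a.F a.l (fun s γ => s * γ) a.hom a.ct hB hB' hv

theorem RA.sch (b : S.RA len s J ε) (g : G) {B B' : ℝ} (hB : (b.F.card : ℝ) ≤ B) (hB' : 0 ≤ B')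
    {v : H} (hv : S.Sch v B') : S.Sch (b.op g v) (B * B') :=
  sch_sum b.F (fun t => b.r t g) (fun t γ => γ * t) (fun t ht => b.hom t ht g)
    (fun t ht => b.ct t ht g) hB hB' hv

theorem VA.sch (c : S.VA len J ε) {B : ℝ} (hB : (c.F.card : ℝ) ≤ B) :
    S.Sch (∑ s ∈ c.F, c.v s) B := by
  intro f d hf
  have hd : 0 ≤ d := (abs_nonneg _).trans (hf 1)
  rw [map_sum]
  have h1 := S.am_sum c.F (v := fun s => S.m f (c.v s)) (A := d) fun s hs => by
    rw [c.hom s hs f (bd_of hf)]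
    exact S.am_mono _ _ _ (S.am_smul _ _ _ (c.am s hs)) (by simpa using hf s)
  refine S.am_mono _ _ _ h1 ?_
  rw [mul_comm]
  exact mul_le_mul_of_nonneg_left hB hd

theorem VA.mass (c : S.VA len J ε) : S.mass {γ | J < len γ} (S.ζ 1) ≤ ε := by
  have h1 : S.mass {γ | J < len γ} (∑ s ∈ c.F, c.v s) = 0 := by
    unfold Sys.mass
    rw [map_sum, Finset.sum_eq_zero, norm_zero]
    intro s hs
    rw [c.hom s hs _ (bd_ind _), Set.indicator_of_notMem (by simpa using c.len_le s hs)]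
    simp
  have h2 := S.mass_near {γ | J < len γ} (S.ζ 1) (∑ s ∈ c.F, c.v s)
  rw [h1, zero_add, norm_sub_rev] at h2
  exact h2.trans c.err

end Sys

end Vale.Agent.P092WN
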