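import Vale.Agent.P092WN.Basic

/-!
P092 (helper20), block B6: the two chains and the double difference, with explicit constants.
-/

set_option linter.all false

open Filter Topology
open scoped InnerProductSpace

namespace Vale.Agent.P092WN

namespace Sys

variable {G Γ H H₀ : Type} [Group G] [Group Γ] [NormedAddCommGroup H] [InnerProductSpace ℂ H]
  [NormedAddCommGroup H₀] [InnerProductSpace ℂ H₀] {S : Sys G Γ H H₀}
  {len : Γ → ℝ} {h s : G} {J ε : ℝ}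

theorem comm_op (a : S.LA len h J ε) (b : S.RA len s J ε) (g : G) (v : H) :
    a.op (b.op g v) = b.op (h * g) (a.op v) := by
  simp only [LA.op, RA.op, ContinuousLinearMap.sum_apply, map_sum]
  rw [Finset.sum_comm]
  exact Finset.sum_congr rfl fun u hu => Finset.sum_congr rfl fun t ht =>
    S.comm h _ _ (a.lf u hu) (b.rt t ht) g v

/-- the double commutator -/
noncomputable def dc (φ : Γ → ℝ) (a : S.LA len h J ε) (b : S.RA len s J ε) (y : G) (v : H) : H :=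
  S.m φ (a.op (b.op y v)) - b.op (h * y) (S.m φ (a.op v)) - a.op (S.m φ (b.op y v)) +
    a.op (b.op y (S.m φ v))

theorem dc_eq {φ : Γ → ℝ} (hφ : Bd φ) (a : S.LA len h J ε) (b : S.RA len s J ε) (y : G) (v : H) :
    dc φ a b y v = ∑ u ∈ a.F, ∑ t ∈ b.F, a.l u (b.r t y
      (S.m (fun γ => φ (u * γ * t) - φ (u * γ) - φ (γ * t) + φ γ) v)) := by
  have e1 : S.m φ (a.op (b.op y v)) =
      ∑ u ∈ a.F, ∑ t ∈ b.F, a.l u (b.r t y (S.m (fun γ => φ (u * γ * t)) v)) := by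
    simp only [LA.op, RA.op, ContinuousLinearMap.sum_apply, map_sum]
    rw [Finset.sum_comm]
    refine Finset.sum_congr rfl fun u hu => Finset.sum_congr rfl fun t ht => ?_
    rw [a.hom u hu φ hφ, b.hom t ht y _ (hφ.comp _)]
    simp only [mul_assoc]
  have e2 : b.op (h * y) (S.m φ (a.op v)) =
      ∑ u ∈ a.F, ∑ t ∈ b.F, a.l u (b.r t y (S.m (fun γ => φ (u * γ)) v)) := by
    simp only [LA.op, RA.op, ContinuousLinearMap.sum_apply, map_sum]
    refine Finset.sum_congr rfl fun u hu => Finset.sum_congr rfl fun t ht => ?_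
    rw [a.hom u hu φ hφ, S.comm h _ _ (a.lf u hu) (b.rt t ht) y]
  have e3 : a.op (S.m φ (b.op y v)) =
      ∑ u ∈ a.F, ∑ t ∈ b.F, a.l u (b.r t y (S.m (fun γ => φ (γ * t)) v)) := by
    simp only [LA.op, RA.op, ContinuousLinearMap.sum_apply, map_sum]
    rw [Finset.sum_comm]
    refine Finset.sum_congr rfl fun u hu => Finset.sum_congr rfl fun t ht => ?_
    rw [b.hom t ht y φ hφ]
  have e4 : a.op (b.op y (S.m φ v)) =
      ∑ u ∈ a.F, ∑ t ∈ b.F, a.l u (b.r t y (S.m φ v)) := by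
    simp only [LA.op, RA.op, ContinuousLinearMap.sum_apply, map_sum]
    rw [Finset.sum_comm]
  unfold dc
  rw [e1, e2, e3, e4, ← Finset.sum_sub_distrib, ← Finset.sum_sub_distrib, ← Finset.sum_add_distrib]
  refine Finset.sum_congr rfl fun u hu => ?_
  rw [← Finset.sum_sub_distrib, ← Finset.sum_sub_distrib, ← Finset.sum_add_distrib]
  refine Finset.sum_congr rfl fun t ht => ?_
  rw [S.m_add _ _ (((hφ.comp _).sub (hφ.comp _)).sub (hφ.comp _)) hφ,
    S.m_sub ((hφ.comp _).sub (hφ.comp _)) (hφ.comp _), S.m_sub (hφ.comp _) (hφ.comp _)]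
  simp only [map_add, map_sub]

theorem dc_le {φ : Γ → ℝ} (hφ : Bd φ) (a : S.LA len h J ε) (b : S.RA len s J ε) (y : G) (v : H)
    {B D : ℝ} (ha : (a.F.card : ℝ) ≤ B) (hb : (b.F.card : ℝ) ≤ B) (hD : 0 ≤ D)
    (hd : ∀ u t, len u ≤ J → len t ≤ J →
      ‖S.m (fun γ => φ (u * γ * t) - φ (u * γ) - φ (γ * t) + φ γ) v‖ ≤ D) :
    ‖dc φ a b y v‖ ≤ B * B * D := by
  rw [dc_eq hφ]
  have hB : 0 ≤ B := (Nat.cast_nonneg _).trans ha
  calc _ ≤ ∑ u ∈ a.F, ∑ t ∈ b.F, D := by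
        refine (norm_sum_le _ _).trans (Finset.sum_le_sum fun u hu => ?_)
        refine (norm_sum_le _ _).trans (Finset.sum_le_sum fun t ht => ?_)
        exact ((a.ct u hu).1 _).trans (((b.ct t ht y).1 _).trans
          (hd u t (a.len_le u hu) (b.len_le t ht)))
    _ = a.F.card * (b.F.card * D) := by simp
    _ ≤ B * (B * D) := mul_le_mul ha (mul_le_mul_of_nonneg_right hb hD)
        (mul_nonneg (Nat.cast_nonneg _) hD) hB
    _ = _ := by ring

/-- the commutator of the gauge with a right approximant -/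
noncomputable def dd (φ : Γ → ℝ) (b : S.RA len s J ε) (y : G) : H :=
  S.m φ (b.op y (S.ζ y)) - b.op y (S.m φ (S.ζ y))

variable {φ : Γ → ℝ} {R : ℝ}

theorem left_step (hφ : ∀ γ, |φ γ| ≤ R) (a : S.LA len h J ε) (b : S.RA len s J ε) (y : G) :
    ‖dd φ b (h * y) - a.op (dd φ b y)‖ ≤ 2 * R * ε + ‖dc φ a b y (S.ζ y)‖ := by
  have hR : 0 ≤ R := (abs_nonneg _).trans (hφ 1)
  set e := S.ζ (h * y) - a.op (S.ζ y) with he
  have h1 : dd φ b (h * y) - a.op (dd φ b y) =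
      S.m φ (b.op (h * y) e) - b.op (h * y) (S.m φ e) + dc φ a b y (S.ζ y) := by
    simp only [dd, dc, he, map_sub, comm_op]
    abel
  have h2 : ‖e‖ ≤ ε := a.zeta y
  have h3 := (S.m_bound hφ (b.op (h * y) e)).trans
    (mul_le_mul_of_nonneg_left (((b.op_ct _).1 e).trans h2) hR)
  have h4 := ((b.op_ct (h * y)).1 _).trans
    ((S.m_bound hφ e).trans (mul_le_mul_of_nonneg_left h2 hR))
  rw [h1]
  have h5 := norm_add_le (S.m φ (b.op (h * y) e) - b.op (h * y) (S.m φ e)) (dc φ a b y (S.ζ y))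
  have h6 := norm_sub_le (S.m φ (b.op (h * y) e)) (b.op (h * y) (S.m φ e))
  linarith

theorem right_step (hφ : ∀ γ, |φ γ| ≤ R) (b : S.RA len s J ε) (y : G) :
    ‖S.m φ (S.ζ (y * s)) - (b.op y (S.m φ (S.ζ y)) + dd φ b y)‖ ≤ R * ε := by
  have hR : 0 ≤ R := (abs_nonneg _).trans (hφ 1)
  have h1 : S.m φ (S.ζ (y * s)) - (b.op y (S.m φ (S.ζ y)) + dd φ b y) =
      S.m φ (S.ζ (y * s) - b.op y (S.ζ y)) := by
    simp only [dd, map_sub]
    abel
  rw [h1]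
  exact (S.m_bound hφ _).trans (mul_le_mul_of_nonneg_left (b.zeta y) hR)

theorem na_xi (hφ : ∀ γ, |φ γ| ≤ R) {v w : H} {B e : ℝ} (hv : S.Sch v B) (hw : ‖w - v‖ ≤ e) :
    S.Na (S.m φ w) (R * B) (R * e) := by
  have hR : 0 ≤ R := (abs_nonneg _).trans (hφ 1)
  refine ⟨_, hv φ R hφ, ?_⟩
  rw [← map_sub]
  exact (S.m_bound hφ _).trans (mul_le_mul_of_nonneg_left hw hR)

theorem na_dd (hφ : ∀ γ, |φ γ| ≤ R) (b : S.RA len s J ε) (y : G) {v : H} {B B' e : ℝ}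
    (hB : (b.F.card : ℝ) ≤ B) (hB1 : 1 ≤ B) (hB' : 0 ≤ B') (hv : S.Sch v B')
    (hw : ‖S.ζ y - v‖ ≤ e) : S.Na (dd φ b y) (2 * R * (B * B')) (2 * R * e) := by
  have hR : 0 ≤ R := (abs_nonneg _).trans (hφ 1)
  have h1 := na_xi hφ (b.sch y hB hB' hv) (w := b.op y (S.ζ y)) (e := e)
    (by rw [← map_sub]; exact ((b.op_ct y).1 _).trans hw)
  obtain ⟨u, hu, h2⟩ := (na_xi hφ hv hw).ct (b.op_ct y)
  obtain ⟨u', hu', h3⟩ := h1
  refine ⟨u' - u, S.am_mono _ _ _ (S.am_sub hu' hu) ?_, ?_⟩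
  · have : R * B' ≤ R * (B * B') :=
      mul_le_mul_of_nonneg_left (le_mul_of_one_le_left hB' hB1) hR
    linarith
  · have e1 : dd φ b y - (u' - u) =
        (S.m φ (b.op y (S.ζ y)) - u') - (b.op y (S.m φ (S.ζ y)) - u) := by
      simp only [dd]; abel
    rw [e1]
    linarith [norm_sub_le (S.m φ (b.op y (S.ζ y)) - u') (b.op y (S.m φ (S.ζ y)) - u)]

/-- approximants of one level for a set of elements, along a commuting path -/
structure Lev (S : Sys G Γ H H₀) (len : Γ → ℝ) (Q : Set G) (z : ℕ → G) (J ε B : ℝ) : Prop where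
  la : ∀ h ∈ Q, Nonempty (S.LA len h J ε)
  ra : ∀ h ∈ Q, Nonempty (S.RA len h J ε)
  va : Nonempty (S.VA len J ε)
  card : ∀ F : Finset Γ, (∀ s ∈ F, len s ≤ J) → (F.card : ℝ) ≤ B
  one_le : 1 ≤ B
  zero : z 0 = 1
  comm : ∀ n m, z n * z m = z m * z n
  step : ∀ n, (z n)⁻¹ * z (n + 1) ∈ Q

variable {Q : Set G} {z : ℕ → G} {B : ℝ}

theorem Lev.succ (hl : Lev S len Q z J ε B) (n : ℕ) :
    z (n + 1) = (z n)⁻¹ * z (n + 1) * z n := by
  rw [mul_assoc, hl.comm (n + 1) n, inv_mul_cancel_left]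

theorem Lev.eps (hl : Lev S len Q z J ε B) : 0 ≤ ε :=
  let ⟨c⟩ := hl.va
  (norm_nonneg _).trans c.err

theorem sch_left (hl : Lev S len Q z J ε B) {k y : G} (hk : k ∈ Q) {v : H} {B' e : ℝ}
    (hB' : 0 ≤ B') (hv : S.Sch v B') (h1 : ‖S.ζ y - v‖ ≤ e) :
    ∃ w, S.Sch w (B * B') ∧ ‖S.ζ (k * y) - w‖ ≤ e + ε := by
  obtain ⟨a⟩ := hl.la k hk
  refine ⟨a.op v, a.sch (hl.card _ a.len_le) hB' hv, ?_⟩
  have e1 : S.ζ (k * y) - a.op v = a.op (S.ζ y - v) + (S.ζ (k * y) - a.op (S.ζ y)) := by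
    rw [map_sub]; abel
  rw [e1]
  exact (norm_add_le _ _).trans (add_le_add ((a.op_ct.1 _).trans h1) (a.zeta y))

theorem sch_path (hl : Lev S len Q z J ε B) (n : ℕ) :
    ∃ v, S.Sch v (B ^ (n + 1)) ∧ ‖S.ζ (z n) - v‖ ≤ (n + 1) * ε := by
  induction n with
  | zero =>
    obtain ⟨c⟩ := hl.va
    refine ⟨_, by simpa using c.sch (hl.card _ c.len_le), ?_⟩
    rw [hl.zero, norm_sub_rev]
    simpa using c.err
  | succ n ih =>
    obtain ⟨v, hv, h1⟩ := ih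
    obtain ⟨w, hw, h2⟩ := sch_left hl (hl.step n) (pow_nonneg (zero_le_one.trans hl.one_le) _) hv h1
    rw [← hl.succ] at h2
    refine ⟨w, by rw [pow_succ' B (n + 1)]; exact hw, h2.trans (le_of_eq ?_)⟩
    push_cast; ring

/-- **The left chain.** -/
theorem dd_chain (hl : Lev S len Q z J ε B) (hφ : ∀ γ, |φ γ| ≤ R) {N₀ N : ℕ} {D : ℝ}
    (b : S.RA len s J ε)
    (hD : ∀ h (a : S.LA len h J ε) n, N₀ ≤ n → n ≤ N → ‖dc φ a b (z n) (S.ζ (z n))‖ ≤ D)
    {n : ℕ} (h0 : N₀ ≤ n) (hn : n ≤ N) {k : G} (hk : k ∈ Q) :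
    S.Na (dd φ b (k * z n)) (2 * R * B ^ (N₀ + 2)) ((N + 1) * (4 * R * ε + D)) := by
  have hR : 0 ≤ R := (abs_nonneg _).trans (hφ 1)
  have hε := hl.eps
  obtain ⟨a⟩ := hl.la k hk
  have hD0 : 0 ≤ D := (norm_nonneg _).trans (hD k a n h0 hn)
  have key : ∀ n, N₀ ≤ n → n ≤ N → S.Na (dd φ b (z n)) (2 * R * B ^ (N₀ + 2))
      (2 * R * ((N + 1) * ε) + n * (2 * R * ε + D)) := by
    intro n h0
    induction n, h0 using Nat.le_induction with
    | base =>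
      intro hn
      obtain ⟨v, hv, h1⟩ := sch_path hl N₀
      have h2 := na_dd hφ b (z N₀) (hl.card _ b.len_le) hl.one_le
        (pow_nonneg (zero_le_one.trans hl.one_le) _) hv h1
      refine h2.mono (le_of_eq (by ring)) ?_
      have h3 : ((N₀ : ℝ) + 1) * ε ≤ (N + 1) * ε :=
        mul_le_mul_of_nonneg_right (by exact_mod_cast Nat.succ_le_succ hn) hε
      have h4 : 0 ≤ (N₀ : ℝ) * (2 * R * ε + D) := by positivity
      nlinarith
    | succ n h0 ih =>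
      intro hn
      obtain ⟨a'⟩ := hl.la _ (hl.step n)
      have h1 := ((ih (Nat.le_of_succ_le hn)).ct a'.op_ct).near
        ((left_step hφ a' b (z n)).trans
          (add_le_add le_rfl (hD _ a' n h0 (Nat.le_of_succ_le hn))))
      rw [← hl.succ] at h1
      refine h1.mono le_rfl (le_of_eq ?_)
      push_cast; ring
  have h1 := ((key n h0 hn).ct a.op_ct).near
    ((left_step hφ a b (z n)).trans (add_le_add le_rfl (hD _ a n h0 hn)))
  refine h1.mono le_rfl ?_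
  have h3 : (n : ℝ) * (2 * R * ε + D) ≤ N * (2 * R * ε + D) :=
    mul_le_mul_of_nonneg_right (by exact_mod_cast hn) (by positivity)
  nlinarith

/-- **The right chain**: the amplitude of the gauge applied to `ζ (k z_N q)`. -/
theorem xi_chain (hl : Lev S len Q z J ε B) (hφ : ∀ γ, |φ γ| ≤ R) {N₀ N : ℕ} (hN : N₀ ≤ N) {D : ℝ}
    (hD : ∀ h s (a : S.LA len h J ε) (b : S.RA len s J ε) n, N₀ ≤ n → n ≤ N →
      ‖dc φ a b (z n) (S.ζ (z n))‖ ≤ D)
    {k q : G} (hk : k ∈ Q) (hq : q ∈ Q) :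
    S.Na (S.m φ (S.ζ (k * z N * q))) (3 * (N + 1) * R * B ^ (N₀ + 2))
      ((N + 2) ^ 2 * (6 * R * ε + D)) := by
  have hR : 0 ≤ R := (abs_nonneg _).trans (hφ 1)
  have hε := hl.eps
  have hB : 0 ≤ B ^ (N₀ + 2) := pow_nonneg (zero_le_one.trans hl.one_le) _
  obtain ⟨b₀⟩ := hl.ra q hq
  obtain ⟨a₀⟩ := hl.la k hk
  have hD0 : 0 ≤ D := (norm_nonneg _).trans (hD _ _ a₀ b₀ N hN le_rfl)
  have step : ∀ n, N₀ ≤ n → n ≤ N → ∀ s ∈ Q, ∀ A ρ, S.Na (S.m φ (S.ζ (k * z n))) A ρ →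
      S.Na (S.m φ (S.ζ (k * z n * s))) (A + 2 * R * B ^ (N₀ + 2))
        (ρ + (N + 1) * (4 * R * ε + D) + R * ε) := by
    intro n h0 hn s hs A ρ h1
    obtain ⟨b⟩ := hl.ra s hs
    exact ((h1.ct (b.op_ct _)).add
      (dd_chain hl hφ b (fun h a n => hD h s a b n) h0 hn hk)).near (right_step hφ b _)
  have key : ∀ n, N₀ ≤ n → n ≤ N → S.Na (S.m φ (S.ζ (k * z n)))
      (R * B ^ (N₀ + 2) + n * (2 * R * B ^ (N₀ + 2)))
      (R * ((N + 2) * ε) + n * ((N + 1) * (4 * R * ε + D) + R * ε)) := by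
    intro n h0
    induction n, h0 using Nat.le_induction with
    | base =>
      intro hn
      obtain ⟨v, hv, h1⟩ := sch_path hl N₀
      obtain ⟨w, hw, h2⟩ :=
        sch_left hl hk (pow_nonneg (zero_le_one.trans hl.one_le) _) hv h1
      rw [← pow_succ' B (N₀ + 1)] at hw
      refine (na_xi hφ hw h2).mono (le_add_of_nonneg_right (by positivity)) ?_
      have h3 : ((N₀ : ℝ) + 1) * ε + ε ≤ (N + 2) * ε := by
        have : (N₀ : ℝ) ≤ N := by exact_mod_cast hn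
        nlinarith
      have h4 : 0 ≤ (N₀ : ℝ) * ((N + 1) * (4 * R * ε + D) + R * ε) := by positivity
      nlinarith
    | succ n h0 ih =>
      intro hn
      have h1 := step n h0 (Nat.le_of_succ_le hn) _ (hl.step n) _ _ (ih (Nat.le_of_succ_le hn))
      rw [mul_assoc, mul_inv_cancel_left] at h1
      refine h1.mono (le_of_eq ?_) (le_of_eq ?_) <;> push_cast <;> ring
  refine (step N hN le_rfl q hq _ _ (key N hN le_rfl)).mono ?_ ?_
  · have : 0 ≤ (N : ℝ) * (R * B ^ (N₀ + 2)) := by positivity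
    nlinarith
  · have h1 : 0 ≤ R * ε := by positivity
    have h2 : (0 : ℝ) ≤ N := Nat.cast_nonneg N
    nlinarith [mul_nonneg h2 h1, mul_nonneg h2 hD0, mul_nonneg (mul_nonneg h2 h2) h1,
      mul_nonneg (mul_nonneg h2 h2) hD0]

/-- the double difference of the true objects -/
noncomputable def dif (S : Sys G Γ H H₀) (φ : Γ → ℝ) (h y s : G) : H :=
  S.m φ (S.ζ (h * y * s)) - S.L h (S.m φ (S.ζ (y * s))) - S.R (h * y) s (S.m φ (S.ζ (h * y))) +
    S.L h (S.R y s (S.m φ (S.ζ y)))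

/-- **The double difference is small.** -/
theorem dif_le (hφ : ∀ γ, |φ γ| ≤ R) (a : S.LA len h J ε) (b : S.RA len s J ε) (y : G) {A ρ : ℝ}
    (h1 : S.Na (S.m φ (S.ζ (y * s))) A ρ) (h2 : S.Na (S.m φ (S.ζ (h * y))) A ρ)
    (h3 : S.Na (S.m φ (S.ζ y)) A ρ) :
    ‖S.dif φ h y s‖ ≤ 4 * R * ε + 4 * (ε * A + 2 * ρ) + ‖dc φ a b y (S.ζ y)‖ := by
  have hR : 0 ≤ R := (abs_nonneg _).trans (hφ 1)
  set e₁ := S.ζ (h * (y * s)) - a.op (S.ζ (y * s)) with he₁
  set e₂ := S.ζ (y * s) - b.op y (S.ζ y) with he₂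
  set e₃ := S.ζ (h * y) - a.op (S.ζ y) with he₃
  set x₁ := a.op (S.m φ (S.ζ (y * s))) - S.L h (S.m φ (S.ζ (y * s))) with hx₁
  set x₂ := b.op (h * y) (S.m φ (S.ζ (h * y))) - S.R (h * y) s (S.m φ (S.ζ (h * y))) with hx₂
  set x₃ := b.op y (S.m φ (S.ζ y)) - S.R y s (S.m φ (S.ζ y)) with hx₃
  set x₄ := a.op (b.op y (S.m φ (S.ζ y))) - S.L h (b.op y (S.m φ (S.ζ y))) with hx₄
  have e : S.dif φ h y s = (S.m φ e₁ + S.m φ (a.op e₂) - a.op (S.m φ e₂) - b.op (h * y) (S.m φ e₃))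
      + (x₁ + x₂ - S.L h x₃ - x₄) + dc φ a b y (S.ζ y) := by
    simp only [dif, dc, he₁, he₂, he₃, hx₁, hx₂, hx₃, hx₄, map_sub, mul_assoc]
    abel
  have m : ∀ v : H, ‖v‖ ≤ ε → ‖S.m φ v‖ ≤ R * ε := fun v hv =>
    (S.m_bound hφ v).trans (mul_le_mul_of_nonneg_left hv hR)
  have b1 := m e₁ (a.zeta _)
  have b2 := m (a.op e₂) ((a.op_ct.1 _).trans (b.zeta y))
  have b3 := (a.op_ct.1 _).trans (m e₂ (b.zeta y))
  have b4 := ((b.op_ct (h * y)).1 _).trans (m e₃ (a.zeta y))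
  have c1 : ‖x₁‖ ≤ _ := a.err_na h1
  have c2 : ‖x₂‖ ≤ _ := b.err_na _ h2
  have c3 : ‖S.L h x₃‖ ≤ _ := (S.L_le h _).trans (b.err_na _ h3)
  have c4 : ‖x₄‖ ≤ _ := a.err_na (h3.ct (b.op_ct y))
  have four : ∀ p q r t : H, ‖p + q - r - t‖ ≤ ‖p‖ + ‖q‖ + ‖r‖ + ‖t‖ := fun p q r t => by
    linarith [norm_sub_le (p + q - r) t, norm_sub_le (p + q) r, norm_add_le p q]
  rw [e]
  refine (norm_add_le _ _).trans (add_le_add ((norm_add_le _ _).trans (add_le_add ?_ ?_)) le_rfl)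
  · linarith [four (S.m φ e₁) (S.m φ (a.op e₂)) (a.op (S.m φ e₂)) (b.op (h * y) (S.m φ e₃))]
  · linarith [four x₁ x₂ (S.L h x₃) x₄]

/-- the mass far away -/
theorem far_path (hl : Lev S len Q z J ε B) (hm : ∀ s t, len (s * t) ≤ len s + len t) (n : ℕ) :
    S.mass {γ | (n + 1) * J < len γ} (S.ζ (z n)) ≤ (n + 1) * ε := by
  induction n with
  | zero =>
    obtain ⟨c⟩ := hl.va
    rw [hl.zero]
    simpa using c.mass
  | succ n ih =>
    obtain ⟨a⟩ := hl.la _ (hl.step n)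
    have h1 := a.mass (E := {γ | ((n + 1 : ℕ) + 1) * J < len γ}) (E' := {γ | (n + 1) * J < len γ})
      (fun s hs γ hγ => by
        have h2 := hm s γ
        simp only [Set.mem_setOf_eq] at hγ ⊢
        push_cast at hγ
        linarith) (z n)
    rw [← hl.succ] at h1
    refine h1.trans ?_
    push_cast
    linarith

end Sys

end Vale.Agent.P092WN
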