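import Vale.Agent.P092WN.Defs
import Mathlib.Analysis.SpecificLimits.Basic

/-!
P092 (helper20), block B6: the limit cocycle along a path.
-/

set_option linter.all false

open Filter Topology
open scoped Pointwise

namespace Vale.Agent.P092WN

theorem bdd_of_step {u : ℕ → ℝ} (h : ∀ᶠ n : ℕ in atTop, u (n + 1) ≤ u n + 4 / (n : ℝ) ^ 2) :
    ∃ C, ∀ᶠ n in atTop, u n ≤ C := by
  obtain ⟨n₀, hn₀⟩ := eventually_atTop.1 (h.and (eventually_ge_atTop 1))
  have key : ∀ n, n₀ ≤ n → u n + 8 / n ≤ u n₀ + 8 / n₀ := by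
    intro n hn
    induction n, hn using Nat.le_induction with
    | base => exact le_rfl
    | succ n hn ih =>
      obtain ⟨h1, h2⟩ := hn₀ n hn
      have h3 : (1 : ℝ) ≤ n := by exact_mod_cast h2
      have h4 : 4 / (n : ℝ) ^ 2 + 8 / (n + 1) ≤ 8 / n := by
        rw [div_add_div _ _ (by positivity) (by positivity), div_le_div_iff₀ (by positivity)
          (by positivity)]
        nlinarith [mul_nonneg (sq_nonneg (n : ℝ)) (sub_nonneg.2 h3)]
      push_cast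
      linarith
  refine ⟨u n₀ + 8 / n₀, ?_⟩
  filter_upwards [eventually_ge_atTop n₀] with n hn
  have : 0 ≤ 8 / (n : ℝ) := by positivity
  linarith [key n hn]

theorem tendsto_inv_pow {k : ℕ} (hk : k ≠ 0) :
    Tendsto (fun n : ℕ => 1 / (n : ℝ) ^ k) atTop (𝓝 0) := by
  simp only [one_div]
  exact tendsto_inv_atTop_zero.comp ((tendsto_pow_atTop hk).comp tendsto_natCast_atTop_atTop)

theorem tele {E : Type} [NormedAddCommGroup E] {x : ℕ → E} {n : ℕ} (hn : 3 ≤ n)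
    (h : ∀ m, n ≤ m → ‖x (m + 1) - x m‖ ≤ 3 / (m : ℝ) ^ 4) {m : ℕ} (hm : n ≤ m) :
    ‖x m - x n‖ ≤ 1 / (n : ℝ) ^ 2 := by
  have key : ‖x m - x n‖ + 1 / (m : ℝ) ^ 2 ≤ 1 / (n : ℝ) ^ 2 := by
    induction m, hm using Nat.le_induction with
    | base => simp
    | succ m hm ih =>
      have h3 : (3 : ℝ) ≤ m := by exact_mod_cast hn.trans hm
      have h4 : 3 / (m : ℝ) ^ 4 + 1 / (m + 1) ^ 2 ≤ 1 / (m : ℝ) ^ 2 := by
        rw [div_add_div _ _ (by positivity) (by positivity), div_le_div_iff₀ (by positivity)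
          (by positivity)]
        have h5 : 3 * ((m : ℝ) + 1) ^ 2 ≤ (m : ℝ) ^ 2 * (2 * m + 1) := by nlinarith
        nlinarith [mul_le_mul_of_nonneg_left h5 (sq_nonneg (m : ℝ))]
      have h6 : x (m + 1) - x n = (x (m + 1) - x m) + (x m - x n) := by abel
      have h7 := norm_add_le (x (m + 1) - x m) (x m - x n)
      rw [h6]
      push_cast
      linarith [h m hm]
  have : 0 ≤ 1 / (m : ℝ) ^ 2 := by positivity
  linarith

variable {G : Type} [Group G] [TopologicalSpace G] [IsTopologicalGroup G] {z : ℕ → G}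

theorem St.mul {p q : G} (hp : St z p) (hq : St z q) : St z (p * q) := by
  obtain ⟨Q, hQ, h1⟩ := hp
  obtain ⟨Q', hQ', h2⟩ := hq
  refine ⟨Q * Q', hQ.mul hQ', ?_⟩
  filter_upwards [h1, h2] with n h3 h4
  have := Set.mul_mem_mul h3 h4
  simpa [mul_assoc] using this

theorem St.of_comm {p : G} (h : ∀ n, p * z n = z n * p) : St z p :=
  ⟨{p}, isCompact_singleton, Eventually.of_forall fun n => by simp [mul_assoc, h n]⟩

theorem Path.st (hp : Path z) (n : ℕ) : St z (z n) := St.of_comm (hp.comm n)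

theorem Path.succ (hp : Path z) (n : ℕ) : z (n + 1) = (z n)⁻¹ * z (n + 1) * z n := by
  rw [mul_assoc, hp.comm (n + 1) n, inv_mul_cancel_left]

variable {𝕜 E : Type} [NontriviallyNormedField 𝕜] [NormedAddCommGroup E] [NormedSpace 𝕜 E]

/-- functions with small double differences along the path -/
structure Ap (σ : G →* (E →L[𝕜] E)) (z : ℕ → G) (X : ℕ → G → E) : Prop where
  iso : ∀ g v, ‖σ g v‖ = ‖v‖
  bd : ∀ N, ∃ B, ∀ y, ‖X N y‖ ≤ B
  dif : ∀ Q : Set G, IsCompact Q → ∀ᶠ N : ℕ in atTop, ∀ h ∈ Q, ∀ k ∈ Q, ∀ s ∈ Q,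
    ‖X N (h * (k * z N) * s) - σ h (X N (k * z N * s)) - X N (h * (k * z N)) +
      σ h (X N (k * z N))‖ ≤ 1 / (N : ℝ) ^ 4
  tr : ∀ Q : Set G, IsCompact Q → ∀ᶠ N : ℕ in atTop, ∀ k ∈ Q,
    ‖X (N + 1) (k * z (N + 1)) - X N (k * z (N + 1))‖ ≤ 1 / (N : ℝ) ^ 4

/-- the coboundary -/
def cob (σ : G →* (E →L[𝕜] E)) (X : ℕ → G → E) (N : ℕ) (h y : G) : E := X N (h * y) - σ h (X N y)

/-- the limit cocycle -/
structure Coc (σ : G →* (E →L[𝕜] E)) (z : ℕ → G) (X : ℕ → G → E) (c : G → G → E) : Prop where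
  coc : ∀ h h' k, c (h * h') k = c h (h' * k) + σ h (c h' k)
  inv : ∀ h k p, St z p → c h (k * p) = c h k
  rate : ∀ Q : Set G, IsCompact Q → ∀ᶠ N : ℕ in atTop, ∀ h ∈ Q, ∀ k ∈ Q,
    ‖cob σ X N h (k * z N) - c h k‖ ≤ 1 / (N : ℝ) ^ 2

variable {σ : G →* (E →L[𝕜] E)} {X : ℕ → G → E} {c : G → G → E}

theorem Ap.cob_right (hX : Ap σ z X) {Q : Set G} (hQ : IsCompact Q) :
    ∀ᶠ N : ℕ in atTop, ∀ h ∈ Q, ∀ k ∈ Q, ∀ s ∈ Q,
      ‖cob σ X N h (k * z N * s) - cob σ X N h (k * z N)‖ ≤ 1 / (N : ℝ) ^ 4 := by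
  filter_upwards [hX.dif Q hQ] with N h1 h hh k hk s hs
  refine le_trans (le_of_eq ?_) (h1 h hh k hk s hs)
  congr 1
  simp only [cob, mul_assoc]
  abel

theorem Ap.step (hX : Ap σ z X) (hp : Path z) {Q : Set G} (hQ : IsCompact Q) :
    ∀ᶠ N : ℕ in atTop, ∀ h ∈ Q, ∀ k ∈ Q,
      ‖cob σ X (N + 1) h (k * z (N + 1)) - cob σ X N h (k * z N)‖ ≤ 3 / (N : ℝ) ^ 4 := by
  obtain ⟨Q₀, hQ₀, hs⟩ := hp.step
  filter_upwards [hX.cob_right (hQ.union hQ₀), hX.tr Q hQ, hX.tr _ (hQ.mul hQ)]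
    with N h1 h2 h3 h hh k hk
  have e1 := h1 h (Or.inl hh) k (Or.inl hk) _ (Or.inr (hs N))
  rw [mul_assoc, mul_inv_cancel_left] at e1
  have e2 := h2 k hk
  rw [← hX.iso h, map_sub] at e2
  have e3 := h3 _ (Set.mul_mem_mul hh hk)
  rw [mul_assoc] at e3
  have e : cob σ X (N + 1) h (k * z (N + 1)) - cob σ X N h (k * z N) =
      (cob σ X N h (k * z (N + 1)) - cob σ X N h (k * z N)) +
      (X (N + 1) (h * (k * z (N + 1))) - X N (h * (k * z (N + 1)))) -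
      (σ h (X (N + 1) (k * z (N + 1))) - σ h (X N (k * z (N + 1)))) := by
    simp only [cob]; abel
  rw [e]
  refine (norm_sub_le _ _).trans ((add_le_add (norm_add_le _ _) le_rfl).trans ?_)
  have : 3 / (N : ℝ) ^ 4 = 1 / (N : ℝ) ^ 4 + 1 / (N : ℝ) ^ 4 + 1 / (N : ℝ) ^ 4 := by ring
  linarith

theorem Ap.exists_coc [CompleteSpace E] (hX : Ap σ z X) (hp : Path z) : ∃ c, Coc σ z X c := by
  have h0 : ∀ Q : Set G, IsCompact Q → ∀ᶠ N : ℕ in atTop, ∀ h ∈ Q, ∀ k ∈ Q, ∀ M, N ≤ M →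
      ‖cob σ X M h (k * z M) - cob σ X N h (k * z N)‖ ≤ 1 / (N : ℝ) ^ 2 := by
    intro Q hQ
    obtain ⟨n₀, hn₀⟩ := eventually_atTop.1 (hX.step hp hQ)
    filter_upwards [eventually_ge_atTop n₀, eventually_ge_atTop 3] with N h1 h2 h hh k hk M hM
    exact tele (x := fun n => cob σ X n h (k * z n)) h2
      (fun m hm => hn₀ m (h1.trans hm) h hh k hk) hM
  have h1 : ∀ h k, ∃ v, Tendsto (fun N => cob σ X N h (k * z N)) atTop (𝓝 v) := by
    intro h k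
    refine cauchySeq_tendsto_of_complete (Metric.cauchySeq_iff'.2 fun ε hε => ?_)
    obtain ⟨N, h2, h3⟩ := ((h0 {h, k} (Set.toFinite _).isCompact).and
      ((tendsto_inv_pow two_ne_zero).eventually (gt_mem_nhds hε))).exists
    exact ⟨N, fun M hM => by
      rw [dist_eq_norm]; exact (h2 h (by simp) k (by simp) M hM).trans_lt h3⟩
  choose c hc using h1
  refine ⟨c, fun h h' k => ?_, fun h k p ⟨Q, hQ, hs⟩ => ?_, fun Q hQ => ?_⟩
  · refine tendsto_nhds_unique (hc (h * h') k) ?_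
    refine ((hc h (h' * k)).add (((σ h).continuous.tendsto _).comp (hc h' k))).congr fun N => ?_
    simp only [cob, Function.comp, map_mul, map_sub, mul_assoc, ContinuousLinearMap.mul_apply]
    abel
  · refine tendsto_nhds_unique (hc h (k * p)) ?_
    refine (hc h k).congr_dist (squeeze_zero' (Eventually.of_forall fun _ => dist_nonneg) ?_
      (tendsto_inv_pow four_ne_zero))
    filter_upwards [hX.cob_right ((hQ.insert h).insert k), hs] with N h2 h3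
    have h4 := h2 h (by simp) k (by simp) _ (Or.inr (Or.inr h3))
    rw [dist_comm, dist_eq_norm]
    simpa [mul_assoc] using h4
  · filter_upwards [h0 Q hQ] with N h2 h hh k hk
    rw [norm_sub_rev]
    exact le_of_tendsto ((hc h k).sub_const _).norm
      (eventually_atTop.2 ⟨N, fun M hM => h2 h hh k hk M hM⟩)

theorem Coc.bdd (hc : Coc σ z X c) (hX : Ap σ z X) {Q : Set G} (hQ : IsCompact Q) :
    ∃ B, ∀ h ∈ Q, ∀ k ∈ Q, ‖c h k‖ ≤ B := by
  obtain ⟨N, h1⟩ := (hc.rate Q hQ).exists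
  obtain ⟨B, hB⟩ := hX.bd N
  refine ⟨B + B + 1 / (N : ℝ) ^ 2, fun h hh k hk => ?_⟩
  have h2 := h1 h hh k hk
  have h3 : ‖cob σ X N h (k * z N)‖ ≤ B + B :=
    (norm_sub_le _ _).trans (add_le_add (hB _) (by rw [hX.iso]; exact hB _))
  have h4 := norm_sub_le (cob σ X N h (k * z N)) (cob σ X N h (k * z N) - c h k)
  rw [sub_sub_cancel] at h4
  linarith

/-- the cocycle has few values up to a summable error -/
theorem Coc.cells (hc : Coc σ z X c) (hX : Ap σ z X) (hp : Path z) (h : G) :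
    ∃ B D : ℝ, ∀ᶠ n : ℕ in atTop, ∃ F : Finset G, (F.card : ℝ) ≤ Real.exp (D * (n + 1)) ∧
      (∀ e ∈ F, ‖c h e‖ ≤ B) ∧ ∀ l, ∃ e ∈ F, ‖c h l - c h e‖ ≤ 3 / (n : ℝ) ^ 2 := by
  obtain ⟨K, hK, h1, Q, hQ, D, h2⟩ := hp.iwa
  obtain ⟨B, hB⟩ := hc.bdd hX (hK.insert h)
  refine ⟨B, D, ?_⟩
  filter_upwards [hc.rate _ (hK.insert h), hX.cob_right ((hK.union hQ).insert h),
    eventually_ge_atTop 1] with n h3 h4 h5
  obtain ⟨F, hF, h6, h7⟩ := h2 n
  refine ⟨F, h6, fun e he => hB h (by simp) e (Or.inr (hF e he)), fun l => ?_⟩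
  obtain ⟨k, hk, h8⟩ := h1 l
  obtain ⟨e, he, h9⟩ := h7 k hk
  refine ⟨e, he, ?_⟩
  have e1 : c h l = c h k := by rw [← hc.inv h k _ h8, mul_inv_cancel_left]
  have e2 := h3 h (by simp) k (Or.inr hk)
  have e3 := h3 h (by simp) e (Or.inr (hF e he))
  have e4 := h4 h (by simp) e (Or.inr (Or.inl (hF e he))) _ (Or.inr (Or.inr h9))
  have e5 : e * z n * ((z n)⁻¹ * (e⁻¹ * k) * z n) = k * z n := by group
  rw [e5] at e4
  have e6 : c h k - c h e = (cob σ X n h (k * z n) - cob σ X n h (e * z n)) +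
      (cob σ X n h (e * z n) - c h e) - (cob σ X n h (k * z n) - c h k) := by abel
  have hn : (1 : ℝ) ≤ n := by exact_mod_cast h5
  have e7 : 1 / (n : ℝ) ^ 4 ≤ 1 / (n : ℝ) ^ 2 :=
    one_div_le_one_div_of_le (by positivity) (pow_le_pow_right₀ hn (by norm_num))
  rw [e1, e6]
  refine (norm_sub_le _ _).trans ((add_le_add (norm_add_le _ _) le_rfl).trans ?_)
  have : 3 / (n : ℝ) ^ 2 = 1 / (n : ℝ) ^ 2 + 1 / (n : ℝ) ^ 2 + 1 / (n : ℝ) ^ 2 := by ring
  linarith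

theorem Coc.path_step (hc : Coc σ z X c) (hX : Ap σ z X) (hp : Path z) :
    ∀ᶠ N : ℕ in atTop, ‖(X (N + 1) (z (N + 1)) - c (z (N + 1)) 1) -
      σ ((z N)⁻¹ * z (N + 1)) (X N (z N) - c (z N) 1)‖ ≤ 2 / (N : ℝ) ^ 2 := by
  obtain ⟨Q, hQ, hs⟩ := hp.step
  filter_upwards [hc.rate _ (hQ.insert 1), hX.tr _ (hQ.insert 1), eventually_ge_atTop 1]
    with N h1 h2 h5
  have e1 := h1 _ (Or.inr (hs N)) 1 (by simp)
  have e2 := h2 1 (by simp)
  have e3 := hc.coc ((z N)⁻¹ * z (N + 1)) (z N) 1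
  rw [← hp.succ, mul_one, ← one_mul (z N), hc.inv _ _ _ (hp.st N), one_mul] at e3
  rw [cob, one_mul, ← hp.succ] at e1
  rw [one_mul] at e2
  have hn : (1 : ℝ) ≤ N := by exact_mod_cast h5
  have e7 : 1 / (N : ℝ) ^ 4 ≤ 1 / (N : ℝ) ^ 2 :=
    one_div_le_one_div_of_le (by positivity) (pow_le_pow_right₀ hn (by norm_num))
  have e : (X (N + 1) (z (N + 1)) - c (z (N + 1)) 1) -
      σ ((z N)⁻¹ * z (N + 1)) (X N (z N) - c (z N) 1) =
      (X (N + 1) (z (N + 1)) - X N (z (N + 1))) +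
      (X N (z (N + 1)) - σ ((z N)⁻¹ * z (N + 1)) (X N (z N)) - c ((z N)⁻¹ * z (N + 1)) 1) := by
    rw [e3, map_sub]; abel
  rw [e]
  refine (norm_add_le _ _).trans ?_
  have : 2 / (N : ℝ) ^ 2 = 1 / (N : ℝ) ^ 2 + 1 / (N : ℝ) ^ 2 := by ring
  linarith

/-- **The functions follow the cocycle up to a bounded error.** -/
theorem Coc.tight (hc : Coc σ z X c) (hX : Ap σ z X) (hp : Path z) :
    ∃ C, ∀ a, ∀ᶠ N : ℕ in atTop, ‖X N (a * z N) - c (a * z N) 1‖ ≤ C := by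
  obtain ⟨C, hC⟩ := bdd_of_step (u := fun N => ‖X N (z N) - c (z N) 1‖) (by
    filter_upwards [hc.path_step hX hp] with N h1
    have h2 := norm_le_norm_add_norm_sub' (X (N + 1) (z (N + 1)) - c (z (N + 1)) 1)
      (σ ((z N)⁻¹ * z (N + 1)) (X N (z N) - c (z N) 1))
    rw [hX.iso] at h2
    have : 2 / (N : ℝ) ^ 2 ≤ 4 / (N : ℝ) ^ 2 := by gcongr; norm_num
    linarith)
  refine ⟨C + 1, fun a => ?_⟩
  filter_upwards [hC, hc.rate {a, 1} (Set.toFinite _).isCompact, eventually_ge_atTop 1]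
    with N h1 h2 h5
  have e1 := h2 a (by simp) 1 (by simp)
  have e3 := hc.coc a (z N) 1
  rw [mul_one, ← one_mul (z N), hc.inv _ _ _ (hp.st N), one_mul] at e3
  rw [cob, one_mul] at e1
  have hn : (1 : ℝ) ≤ N := by exact_mod_cast h5
  have e7 : 1 / (N : ℝ) ^ 2 ≤ 1 := (div_le_one (by positivity)).2 (one_le_pow₀ hn)
  have e : X N (a * z N) - c (a * z N) 1 =
      σ a (X N (z N) - c (z N) 1) + (X N (a * z N) - σ a (X N (z N)) - c a 1) := by
    rw [e3, map_sub]; abel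
  rw [e]
  refine (norm_add_le _ _).trans ?_
  rw [hX.iso]
  linarith

end Vale.Agent.P092WN
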